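import Crest.Agent.N255.Da.Glob
import Crest.Agent.N255.Da.Lk
import Crest.Agent.N255.Ch.Main
import Crest.Agent.N255.Ce.All

/-!
# Row 255 (helper36): the chamber lemma for the concrete model; the `PD4` side of the row
-/

set_option autoImplicit false

noncomputable section

namespace Crest.Agent.N255.Da

/-- **the finite facts** -/
def fc : D.Fc := fcOf lk1 lk2 lk3

/-- the local structure -/
def loc : Ch.Loc D.mir := fc.loc

/-- **the chamber lemma** -/
def cham : D.mir.Cham := loc.cham ⟨1, 0, true⟩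

/-- **the `PD4` side**: the group of the model is finitely presented, of finite type, and `PD4` -/
theorem pSide : Group.IsFinitelyPresented D.mir.G ∧ Kc.KCl D.mir.G ∧ Gc.PD4 D.mir.G :=
  ⟨D.mir.fp, D.mir.kCl, cham.pd4⟩

/-- the statement of the row from the non manifold clause -/
theorem s0393_of (h : Ce.NoMf D.mir.G) :
    ∃ (G : Type) (_ : Group G), Group.IsFinitelyPresented G ∧
      (∃ (N : ℕ) (K : Geometry.SimplicialComplex ℝ (EuclideanSpace ℝ (Fin N))),
        K.faces.Finite ∧ (∀ s ∈ K.faces, s.card ≤ 5) ∧ PathConnectedSpace K.space ∧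
        (∀ n : ℕ, 2 ≤ n → ∀ x : K.space, Subsingleton (HomotopyGroup (Fin n) K.space x)) ∧
        ∃ x : K.space, Nonempty (FundamentalGroup K.space x ≃* G)) ∧
      (∀ i : ℕ, i ≠ 4 → CategoryTheory.Limits.IsZero (groupCohomology (Rep.leftRegular ℤ G) i)) ∧
      Nonempty (groupCohomology (Rep.leftRegular ℤ G) 4 ≃+ ℤ) ∧
      (∀ g : G, (groupCohomology.functor ℤ G 4).map
          ((Rep.leftRegular ℤ G).leftRegularHom (MonoidAlgebra.single g (1 : ℤ))) =
        CategoryTheory.CategoryStruct.id (groupCohomology (Rep.leftRegular ℤ G) 4)) ∧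
      ¬ ∃ (M : Type) (_ : TopologicalSpace M) (_ : ChartedSpace (EuclideanSpace ℝ (Fin 4)) M),
        T2Space M ∧ SecondCountableTopology M ∧ CompactSpace M ∧ ConnectedSpace M ∧
        (∀ n : ℕ, 2 ≤ n → ∀ x : M, Subsingleton (HomotopyGroup (Fin n) M x)) ∧
        ∃ x : M, Nonempty (FundamentalGroup M x ≃* G) :=
  cham.s0393 h

end Crest.Agent.N255.Da

end
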