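import Crest.Agent.N255.Da.Tree
import Crest.Agent.N255.Ch.Q

/-!
# Row 255 (helper36): certificates as lists; bridge from decision trees to `Ch.dq`, `Ch.Q`
-/

set_option autoImplicit false
set_option linter.unusedSectionVars false

namespace Crest.Agent.N255.Da

open Ch

/-- the tree is read from a preorder list; the rest of the list is returned -/
def runC (nb : ℕ → ℕ) : ℕ → List ℕ → ℕ → ℕ × List ℕ
  | 0, c, _ => (1000, c)
  | f + 1, c, A => bif A == 0 then (1, c) else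
      match c with
      | [] => (1000, [])
      | v :: c => bif A.testBit v then
          bif (A ^^^ 2 ^ v) &&& nb v == A ^^^ 2 ^ v then (0, c)
          else match runC nb f c (A &&& nb v) with
            | (n, c') => match runC nb f c' (A ^^^ 2 ^ v) with
              | (m, c'') => (n + m, c'')
        else (1000, c)

variable {V : Type} [DecidableEq V] [Fintype V] {G : SimpleGraph V} {enc : V → ℕ} {nb : ℕ → ℕ}
  {M : ℕ}

theorem Code.runC_sound {eps : V → Finset V → ℤ} (hc : Code G enc nb M)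
    (he : ∀ s τ, eps s τ * eps s τ = 1) (f : ℕ) : ∀ (c : List ℕ) (m : ℕ) (ρ : Finset V), Sub m M →
      Ok G ρ (S enc m) → (runC nb f c m).1 < 1000 → Gd G eps ρ (S enc m) (runC nb f c m).1 := by
  induction f with
  | zero => intro c m ρ _ _ h; exact absurd h (lt_irrefl _)
  | succ f ih =>
    intro c m ρ hm ho h
    unfold runC at h ⊢
    by_cases e0 : m = 0
    · subst e0
      rw [show S enc 0 = ∅ by simp [S]]
      exact gd_leaf
    rw [beq_false_of_ne e0, cond_false] at h ⊢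
    rcases c with _ | ⟨k, c⟩
    · exact absurd h (lt_irrefl _)
    dsimp only at h ⊢
    by_cases e1 : m.testBit k
    swap
    · rw [Bool.not_eq_true] at e1; rw [e1] at h; exact absurd h (lt_irrefl _)
    obtain ⟨v, rfl⟩ := hc.sur _ (hm _ e1)
    rw [e1, cond_true] at h ⊢
    by_cases e2 : (m ^^^ 2 ^ enc v) &&& nb (enc v) = m ^^^ 2 ^ enc v
    · rw [beq_iff_eq.2 e2, cond_true]
      refine gd_cone he ho (mem_S.2 e1) fun a ha hne => ?_
      have : a ∈ S enc ((m ^^^ 2 ^ enc v) &&& nb (enc v)) := by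
        rw [e2, hc.S_xor e1]; exact Finset.mem_erase.2 ⟨hne, ha⟩
      exact ((hc.S_and _ v a).1 this).2.symm
    rw [beq_false_of_ne e2, cond_false] at h ⊢
    dsimp only at h ⊢
    refine gd_split ho (mem_S.2 e1) (hc.S_and m v)
      (ih _ _ _ (hm.land _) (ho.left (mem_S.2 e1) (hc.S_and m v)) (by omega)) ?_
    rw [← hc.S_xor e1]
    exact ih _ _ _ (hm.xor e1) (by rw [hc.S_xor e1]; exact ho.right v) (by omega)

/-! ### the bridge -/

variable {K : Type} [LinearOrder K] {col : V → K} {U t0 A : Finset V}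

/-- `A` is the link of the clique `t0` in `U` -/
structure Lk (G : SimpleGraph V) (U t0 A : Finset V) : Prop where
  cl : G.IsClique (t0 : Set V)
  sub : t0 ⊆ U
  mem : ∀ a, a ∈ A ↔ a ∈ U ∧ a ∉ t0 ∧ ∀ r ∈ t0, G.Adj a r

theorem Lk.ok (h : Lk G U t0 A) : Ok G t0 A := ⟨h.cl, fun a ha => ((h.mem a).1 ha).2⟩

theorem lk_empty (U : Finset V) : Lk G U ∅ U := ⟨by simp, by simp, by simp⟩

theorem Lk.fam (h : Lk G U t0 A) {τ : Finset V} : Fam G t0 A τ ↔ τ ∈ Q G U t0 := by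
  refine and_congr_right fun h1 => and_congr_right fun h2 => ⟨fun h3 x hx => ?_, fun h3 x hx => ?_⟩
  · exact (Finset.mem_union.1 (h3 hx)).elim (fun e => h.sub e) fun e => ((h.mem x).1 e).1
  · by_cases e : x ∈ t0
    · exact Finset.mem_union_left _ e
    · exact Finset.mem_union_right _ ((h.mem x).2 ⟨h3 hx, e, fun r hr =>
        h1 hx (h2 hr) fun e' => e (e' ▸ hr)⟩)

theorem dq_eq_de {a : Finset V →₀ ℤ} (ha : a ∈ Sp (Q G U t0)) {τ : Finset V} (hτ : τ ∈ Q G U t0) :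
    dq G col U a τ = de (eps col) t0 a τ := by
  rw [dq_apply, if_pos hτ.1, Finset.inter_eq_left.2 hτ.2.2, de_apply]
  refine (Finset.sum_subset Finset.sdiff_subset fun s hs hn => ?_).symm
  have : s ∈ t0 := by_contra fun e => hn (Finset.mem_sdiff.2 ⟨hs, e⟩)
  by_contra e
  exact Finset.notMem_erase s τ ((mem_Sp.1 ha _ (right_ne_zero_of_mul e)).2.1 this)

/-- restriction of a function to the cells of `X` -/
noncomputable def cut (X : Set (Finset V)) : (Finset V → ℤ) →ₗ[ℤ] (Finset V →₀ ℤ) :=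
  (rs X).comp (Finsupp.linearEquivFunOnFinite ℤ ℤ (Finset V)).symm.toLinearMap

theorem cut_mem (X : Set (Finset V)) (a : Finset V → ℤ) : cut X a ∈ Sp X := rs_mem _ _

theorem cut_of_mem {X : Set (Finset V)} (a : Finset V → ℤ) {τ : Finset V} (h : τ ∈ X) :
    cut X a τ = a τ := rs_of_mem _ h

theorem eq_of_Sp {X : Set (Finset V)} {a b : Finset V →₀ ℤ} (ha : a ∈ Sp X) (hb : b ∈ Sp X)
    (h : ∀ τ ∈ X, a τ = b τ) : a = b := by
  ext τ
  by_cases e : τ ∈ X
  · exact h τ e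
  · rw [by_contra fun e' => e (mem_Sp.1 ha τ e'), by_contra fun e' => e (mem_Sp.1 hb τ e')]

theorem Lk.dq_cut (h : Lk G U t0 A) (a : Finset V → ℤ) :
    dq G col U (cut (Q G U t0) a) = cut (Q G U t0) (de (eps col) t0 a) :=
  eq_of_Sp (cl_Q U t0 _ (cut_mem _ _)) (cut_mem _ _) fun τ hτ => by
    rw [dq_eq_de (cut_mem _ _) hτ, cut_of_mem _ hτ]
    exact de_congr fun s _ hs => cut_of_mem _ (h.fam.1 ((h.fam.2 hτ).erase hs))

theorem cut_coe {X : Set (Finset V)} {a : Finset V →₀ ℤ} (ha : a ∈ Sp X) : cut X a = a :=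
  eq_of_Sp (cut_mem _ _) ha fun _ hτ => cut_of_mem _ hτ

theorem Lk.cy_iff (h : Lk G U t0 A) {a : Finset V → ℤ} :
    Cy G (eps col) t0 A a ↔ dq G col U (cut (Q G U t0) a) = 0 := by
  rw [h.dq_cut]
  exact ⟨fun e => eq_of_Sp (cut_mem _ _) (Submodule.zero_mem _) fun τ hτ =>
    (cut_of_mem _ hτ).trans (e τ (h.fam.2 hτ)),
    fun e τ hτ => (cut_of_mem _ (h.fam.1 hτ)).symm.trans (by rw [e]; rfl)⟩

/-- **periods detect coboundaries** -/
theorem Gd.ex {ι : Type} [Fintype ι] (h : Lk G U t0 A) (hcol : ∀ s t, G.Adj s t → col s ≠ col t)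
    (hg : Gd G (eps col) t0 A (Fintype.card ι)) (f : (Finset V →₀ ℤ) →ₗ[ℤ] ι → ℤ)
    (fd : ∀ a ∈ Sp (Q G U t0), f (dq G col U a) = 0)
    (onto : ∀ y, ∃ a ∈ Sp (Q G U t0), dq G col U a = 0 ∧ f a = y) {b : Finset V →₀ ℤ}
    (hb : b ∈ Sp (Q G U t0)) (hd : dq G col U b = 0) (hf : f b = 0) :
    ∃ a ∈ Sp (Q G U t0), dq G col U a = b := by
  obtain ⟨a, ha⟩ := hg.exact (fun a => h.cy_iff.2 (by rw [← h.dq_cut, dq_dq hcol]))
    (f.comp (cut (Q G U t0))) (fun a e => by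
      rw [LinearMap.comp_apply, eq_of_Sp (cut_mem _ a) (Submodule.zero_mem _) fun τ hτ =>
        (cut_of_mem _ hτ).trans (e τ (h.fam.2 hτ)), map_zero])
    (fun a => by rw [LinearMap.comp_apply, ← h.dq_cut]; exact fd _ (cut_mem _ _))
    (fun y => by
      obtain ⟨a, h1, h2, h3⟩ := onto y
      exact ⟨a, h.cy_iff.2 (by rw [cut_coe h1, h2]), by rw [LinearMap.comp_apply, cut_coe h1, h3]⟩)
    (a := b) (h.cy_iff.2 (by rw [cut_coe hb, hd])) (by rw [LinearMap.comp_apply, cut_coe hb, hf])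
  refine ⟨cut (Q G U t0) a, cut_mem _ _, ?_⟩
  rw [h.dq_cut]
  exact eq_of_Sp (cut_mem _ _) hb fun τ hτ => (cut_of_mem _ hτ).trans (ha τ (h.fam.2 hτ)).symm

/-- no critical cell -/
theorem Gd.ex0 (h : Lk G U t0 A) (hcol : ∀ s t, G.Adj s t → col s ≠ col t)
    (hg : Gd G (eps col) t0 A 0) {b : Finset V →₀ ℤ} (hb : b ∈ Sp (Q G U t0))
    (hd : dq G col U b = 0) : ∃ a ∈ Sp (Q G U t0), dq G col U a = b :=
  Gd.ex (ι := Empty) h hcol (by simpa using hg) 0 (fun _ _ => rfl)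
    (fun _ => ⟨0, Submodule.zero_mem _, map_zero _, Subsingleton.elim _ _⟩) hb hd rfl

/-- one critical cell -/
theorem Gd.ex1 (h : Lk G U t0 A) (hcol : ∀ s t, G.Adj s t → col s ≠ col t)
    (hg : Gd G (eps col) t0 A 1) (s : (Finset V →₀ ℤ) →ₗ[ℤ] ℤ)
    (fd : ∀ a ∈ Sp (Q G U t0), s (dq G col U a) = 0) (top : Top (dq G col U) s (Sp (Q G U t0))) :
    Ex (dq G col U) s (Sp (Q G U t0)) := fun _ hb hd hf => by
  obtain ⟨a0, h0, h1, h2⟩ := top
  exact Gd.ex (ι := Unit) h hcol (by simpa using hg) (LinearMap.pi fun _ => s)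
    (fun a ha => funext fun _ => fd a ha)
    (fun y => ⟨y () • a0, Submodule.smul_mem _ _ h0, by rw [map_smul, h1, smul_zero],
      funext fun _ => by rw [LinearMap.pi_apply, map_smul, h2, smul_eq_mul, mul_one]⟩) hb hd
    (funext fun _ => hf)

end Crest.Agent.N255.Da
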