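import Crest.Agent.N255.Da.Col
import Crest.Agent.N255.Lv.Pt

/-!
# Row 255 (helper41): the collar facts for the head side of an edge
-/

set_option autoImplicit false

namespace Crest.Agent.N255.Da

open Pt Nv Lv Set

variable (e : Ed (Fin 3))

theorem Tj_hd : Tj (hd e) (op e.k) = supE e := Tj_op e.v e.k

theorem A_h1 (a : VV) (h : cp (hd e) a ∉ Tj (hd e) (op e.k)) : cp (hd e) a ∈ A e :=
  (A_trich e _).elim id fun k => (k.elim (cp_nmem_A (hs_hd e) a) fun k => h (Tj_hd e ▸ k)).elim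

theorem A_h2 (a : VV) : cp (hd e * x (op e.k)) a ∉ A e := fun h =>
  not_hs_v e (by simpa [hd] using cp_mem_A h)

/-- **K1** for the head side of `e` -/
theorem nev_A {s : Set SS} (hs : s.Nonempty) (hT : s ⊆ supE e) (hq : Cq (Rl D.Gt) s) :
    Nev (Rl D.Gt) 8 {b ∈ A e | ∀ a ∈ s, Rl D.Gt a b} :=
  nev_link (A_h1 e) (A_h2 e) hs (Tj_hd e ▸ hT) hq

/-- **K2** for the head side of `e` -/
theorem lkAc_A (k : Type) [CommRing k] : LkAc k (Rl D.Gt) (A e) (A e ∪ supE e) :=
  Tj_hd e ▸ lkAc_wall k (A_h1 e) (A_h2 e)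

/-- any set that agrees with the head side of `e` on the two chambers at `e` -/
theorem lkAc_of (k : Type) [CommRing k] {B : Set SS} (h1 : ∀ a, cp (hd e) a ∉ supE e → cp (hd e) a ∈ B)
    (h2 : ∀ a, cp e.v a ∉ B) : LkAc k (Rl D.Gt) B (B ∪ supE e) :=
  Tj_hd e ▸ lkAc_wall k (fun a h => h1 a (Tj_hd e ▸ h)) fun a => by simpa [hd] using h2 a

/-- the wall separates -/
theorem rl_sep {a b : SS} (h : Rl D.Gt a b) (hb : b ∈ A e) : a ∈ supE e ∪ A e := by
  rcases h with rfl | h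
  · exact Or.inr hb
  · rcases A_trich e a with k | k | k
    exacts [Or.inr k, absurd k (A_sep D h.symm hb), Or.inl k]

/-- every vertex of the wall has a neighbour on the head side -/
theorem exists_A {a : SS} (h : a ∈ supE e) : ∃ b ∈ A e, Rl D.Gt a b := by
  obtain ⟨b, hb, k⟩ := (nev_A e (singleton_nonempty a) (singleton_subset_iff.2 h) (by
    rintro _ rfl _ rfl; exact Rl.refl _ _)).nonempty
  exact ⟨b, hb, k a rfl⟩

end Crest.Agent.N255.Da
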