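import Crest.Agent.N255.Da.Graph
import Crest.Agent.N255.Nv.Ne
import Crest.Agent.N255.Nv.Ret
import Crest.Agent.N255.Tp.ProNe

/-!
# Row 255 (helper41): the inner links of the cliques of a wall are non-evasive
-/

set_option autoImplicit false

namespace Crest.Agent.N255.Da

open Pt Nv Set

/-- equal or adjacent -/
def Rl {I : Type} (G : SimpleGraph I) (a b : I) : Prop := a = b ∨ G.Adj a b

theorem Rl.refl {I : Type} (G : SimpleGraph I) (a : I) : Rl G a a := Or.inl rfl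

theorem Rl.symm {I : Type} (G : SimpleGraph I) (a b : I) (h : Rl G a b) : Rl G b a :=
  h.imp Eq.symm SimpleGraph.Adj.symm

theorem nev_card {I : Type} {R : I → I → Prop} {m : ℕ} : ∀ {t : Set I}, Nev R m t → t.ncard ≤ m + 1 := by
  induction m with
  | zero => rintro _ ⟨a, rfl⟩; simp
  | succ m ih =>
    rintro t (⟨a, rfl⟩ | ⟨v, hv, a, -⟩)
    · simp
    · rw [← insert_sdiff_self_of_mem hv]
      exact (ncard_insert_le _ _).trans (Nat.succ_le_succ (ih a))

open Classical in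
/-- non-evasive finite sets form a class that can be peeled -/
theorem peel_nev {I : Type} (R : I → I → Prop) : Tp.Peel R fun t : Finset I => ∃ m, Nev R m ↑t := by
  have one : ∀ t : Finset I, (∃ a, (t : Set I) = {a}) → ∃ a, t = {a} := fun t h =>
    h.imp fun a e => Finset.coe_injective (by simpa using e)
  rintro t ⟨_ | m, h⟩
  · exact Or.inl (one t h)
  · refine Or.imp (one t) (fun ⟨v, hv, a, b⟩ => ⟨v, hv, ⟨m, by simpa using a⟩, m, ?_⟩) h
    convert b using 1
    ext w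
    simp [Lk, and_comm]

/-- some bit satisfies `p` -/
def exb (p : ℕ → Bool) : ℕ → ℕ → Bool
  | 0, _ => false
  | n + 1, B => bif B == 0 then false else p B.log2 || exb p n (B % 2 ^ B.log2)

/-- a bit that satisfies `p` -/
def fdb (p : ℕ → Bool) : ℕ → ℕ → ℕ
  | 0, _ => 0
  | n + 1, B => bif p B.log2 then B.log2 else fdb p n (B % 2 ^ B.log2)

/-- a dominated vertex -/
def pv (A : ℕ) : ℕ :=
  fdb (fun v => exb (fun u => A &&& nb v &&& (nb u ||| 2 ^ u) == A &&& nb v) 9 (A &&& nb v)) 9 A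

/-- the decision tree -/
def nv : ℕ → ℕ → Bool
  | 0, A => A == 2 ^ A.log2
  | m + 1, A => A == 2 ^ A.log2 ||
      (A.testBit (pv A) && (nv m (A ^^^ 2 ^ pv A) && nv m (A &&& nb (pv A))))

/-- the set of a mask -/
def Ms (A : ℕ) : Set VV := {a | A.testBit (enc a) = true}

theorem nv_sound (m : ℕ) : ∀ A, A < 2 ^ 208 → nv m A = true → Nev (Rl Γ) m (Ms A) := by
  have lt : ∀ {A v : ℕ}, A < 2 ^ 208 → A.testBit v = true → v < 208 := fun hA h => by
    by_contra c
    rw [Nat.testBit_lt_two_pow (hA.trans_le (Nat.pow_le_pow_right two_pos (not_lt.1 c)))] at h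
    exact absurd h (by simp)
  have one : ∀ A, A < 2 ^ 208 → (A == 2 ^ A.log2) = true → ∃ a, Ms A = {a} := fun A hA h => by
    rw [beq_iff_eq] at h
    generalize A.log2 = n at h
    subst h
    obtain ⟨a, rfl⟩ := enc_surj (lt hA Nat.testBit_two_pow_self)
    refine ⟨a, Set.ext fun b => ?_⟩
    simp [Ms, Nat.testBit_two_pow, enc_inj.eq_iff, eq_comm]
  induction m with
  | zero => exact one
  | succ m ih =>
    intro A hA h
    simp only [nv, Bool.or_eq_true, Bool.and_eq_true] at h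
    refine h.imp (one A hA) ?_
    generalize pv A = n
    rintro ⟨h1, h2, h3⟩
    obtain ⟨v, rfl⟩ := enc_surj (lt hA h1)
    refine ⟨v, h1, ?_, ?_⟩
    · convert ih _ (Nat.xor_lt_two_pow hA (Nat.pow_lt_pow_right one_lt_two (enc_lt v))) h2 using 1
      ext w
      by_cases e : w = v
      · subst e; simp [Ms, h1]
      · simp [Ms, e, Nat.testBit_two_pow, enc_inj.eq_iff, Ne.symm e]
    · convert ih _ (Nat.and_lt_two_pow A (nb_lt _)) h3 using 1
      ext w
      simp only [Lk, Ms, mem_ofPred_eq, mem_sdiff, mem_singleton_iff, Nat.testBit_and, Bool.and_eq_true,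
        ← adj_iff, Rl]
      exact ⟨fun h => ⟨h.1.1, h.2.resolve_left (Ne.symm h.1.2)⟩, fun h => ⟨⟨h.1, h.2.ne'⟩, Or.inr h.2⟩⟩

/-- the mask of the vertices off the wall `w` -/
def ow (w : ℕ) : ℕ := (2 ^ 208 - 1) ^^^ (65535 <<< (112 + 16 * w))

/-- `a` and `b` are equal or adjacent in the torus -/
def te (a b : ℕ) : Bool := a == b || (tg a).testBit b

theorem chk_col : al (fun w => al (fun a => al (fun b => !te a b || al (fun c =>
    !te a c || !te b c || nv 8 (ow w &&& nb (112 + 16 * w + a) &&& nb (112 + 16 * w + b) &&&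
      nb (112 + 16 * w + c))) (b + 1)) (a + 1)) 16) 6 = true := by decide +kernel

theorem ow_bit (j : Fin 3 × Bool) (a : VV) : (ow (wn j)).testBit (enc a) = true ↔ ∀ t, a ≠ .inr (j, t) := by
  have := enc_lt a
  rw [ow, Nat.testBit_xor, Nat.testBit_two_pow_sub_one, Nat.testBit_shiftLeft,
    show 65535 = 2 ^ 16 - 1 from rfl, Nat.testBit_two_pow_sub_one]
  constructor
  · rintro h t rfl
    have := t.2
    have := wn_lt j
    simp only [enc] at h
    simp at h
    omega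
  · intro h
    by_cases c : 112 + 16 * wn j ≤ enc a ∧ enc a - (112 + 16 * wn j) < 16
    · exact absurd (enc_inj (show enc a = enc (.inr (j, ⟨_, c.2⟩)) from (Nat.add_sub_of_le c.1).symm)) (h _)
    · simp only [this, decide_true, ge_iff_le, Bool.true_xor, Bool.not_eq_true', Bool.and_eq_false_iff,
        decide_eq_false_iff_not]
      tauto

theorem te_of (j : Fin 3 × Bool) {a b : Fin 16} (h : Rl Γ (.inr (j, a)) (.inr (j, b))) :
    te a b = true := by
  rcases h with h | h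
  · simp only [Sum.inr.injEq, Prod.mk.injEq, true_and] at h
    simp [te, h]
  · simp [te, (adj_wall j a b).1 h]

/-- three labels on a wall -/
theorem nev_three (j : Fin 3 × Bool) (a b c : Fin 16) (hb : b ≤ a) (hc : c ≤ b)
    (h1 : Rl Γ (.inr (j, a)) (.inr (j, b))) (h2 : Rl Γ (.inr (j, a)) (.inr (j, c)))
    (h3 : Rl Γ (.inr (j, b)) (.inr (j, c))) : Nev (Rl Γ) 8 {x | (∀ t, x ≠ .inr (j, t)) ∧
      Γ.Adj (.inr (j, a)) x ∧ Γ.Adj (.inr (j, b)) x ∧ Γ.Adj (.inr (j, c)) x} := by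
  have h := al_iff.1 (al_iff.1 (al_iff.1 chk_col _ (wn_lt j)) _ a.2) b (Nat.lt_succ_of_le hb)
  rw [te_of j h1, Bool.not_true, Bool.false_or] at h
  have h := al_iff.1 h c (Nat.lt_succ_of_le hc)
  rw [te_of j h2, te_of j h3, Bool.not_true, Bool.false_or, Bool.false_or] at h
  convert nv_sound 8 _ (Nat.and_lt_two_pow _ (nb_lt _)) h using 1
  ext x
  simp only [Ms, mem_ofPred_eq, Nat.testBit_and, Bool.and_eq_true, ow_bit, adj_iff, and_assoc]
  rfl

/-- **the inner link of a clique of a wall is non-evasive** -/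
theorem nev_wall (j : Fin 3 × Bool) (s : Set (Fin 16)) (hs : s.Nonempty)
    (hq : ∀ a ∈ s, ∀ b ∈ s, Rl Γ (.inr (j, a)) (.inr (j, b))) :
    Nev (Rl Γ) 8 {x | (∀ t, x ≠ .inr (j, t)) ∧ ∀ a ∈ s, Γ.Adj (.inr (j, a)) x} := by
  classical
  have h3 : s.toFinset.card ≤ 3 := D.dim1 j.1 _ fun a ha b hb e => by
    have := (hq a (by simpa using ha) b (by simpa using hb)).resolve_left (by simpa using e)
    exact (adj_wall _ a b).2 ((adj_wall j a b).1 this)
  obtain ⟨a, ha, ma⟩ := s.toFinite.exists_maximal hs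
  obtain ⟨c, hc, mc⟩ := s.toFinite.exists_minimal hs
  have la : ∀ x ∈ s, x ≤ a := fun x hx => (le_total x a).elim id (ma hx)
  have lc : ∀ x ∈ s, c ≤ x := fun x hx => (le_total c x).elim id (mc hx)
  obtain ⟨b, hb, h⟩ : ∃ b ∈ s, ∀ x ∈ s, x = a ∨ x = b ∨ x = c := by
    by_cases e : ∃ b ∈ s, b ≠ a ∧ b ≠ c
    · obtain ⟨b, hb, e1, e2⟩ := e
      refine ⟨b, hb, fun x hx => by_contra fun n => ?_⟩
      simp only [not_or] at n
      have ac : a ≠ c := fun e => e1 (le_antisymm (la b hb) (e ▸ lc b hb))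
      have : ({x, a, b, c} : Finset (Fin 16)) ⊆ s.toFinset := by
        simp [Set.insert_subset_iff, hx, ha, hb, hc]
      have := Finset.card_le_card this
      rw [Finset.card_insert_of_notMem (by simp [n]), Finset.card_insert_of_notMem (by simp [ac, e1.symm]),
        Finset.card_pair e2] at this
      omega
    · refine ⟨a, ha, fun x hx => by_contra fun n => e ⟨x, hx, ?_⟩⟩
      simp only [not_or] at n
      exact ⟨n.1, n.2.2⟩
  convert nev_three j a b c (la b hb) (lc b hb) (hq a ha b hb) (hq a ha c hc) (hq b hb c hc) using 3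
  refine and_congr_right fun _ => ⟨fun k => ⟨k a ha, k b hb, k c hc⟩, fun k x hx => ?_⟩
  rcases h x hx with rfl | rfl | rfl
  exacts [k.1, k.2.1, k.2.2]

/-- the vertices of the cover -/
abbrev SS : Type := St (Fin 3) (Fin 112) (Fin 16)

/-- the wall of the chamber `v` in direction `j` -/
def Tj (v : FreeGroup (Fin 3)) (j : Fin 3 × Bool) : Set SS := range fun t => cp v (.inr (j, t))

theorem Tj_eq (v : FreeGroup (Fin 3)) (j : Fin 3 × Bool) : Tj v j = supE ⟨v, j⟩ := rfl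

theorem Tj_op (v : FreeGroup (Fin 3)) (j : Fin 3 × Bool) : Tj (v * x j) (op j) = Tj v j := by
  simp only [Tj, cp_op]

theorem rl_cp (v : FreeGroup (Fin 3)) (a b : VV) : Rl D.Gt (cp v a) (cp v b) ↔ Rl Γ a b :=
  or_congr (cp_injective v).eq_iff (D.adj_cp v a b)

/-- the neighbours of a vertex of a wall lie in one of the two chambers -/
theorem nb_wall {v : FreeGroup (Fin 3)} {j : Fin 3 × Bool} {t : Fin 16} {y : SS}
    (h : Rl D.Gt (cp v (.inr (j, t))) y) : y ∈ range (cp v) ∨ y ∈ range (cp (v * x j)) := by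
  rcases h with rfl | ⟨u, a, b, -, e, rfl⟩
  · exact Or.inl ⟨_, rfl⟩
  · rcases cp_eq.1 e.symm with c | ⟨j', t', c1, -, c⟩
    · exact Or.inl ⟨b, by rw [c.1]⟩
    · simp only [Sum.inr.injEq, Prod.mk.injEq] at c1
      exact Or.inr ⟨b, by rw [c, c1.1]⟩

/-- **K1**: `A` contains the chamber `v` without its wall `j` and misses the chamber across the wall -/
theorem nev_link {v : FreeGroup (Fin 3)} {j : Fin 3 × Bool} {A : Set SS}
    (h1 : ∀ a, cp v a ∉ Tj v j → cp v a ∈ A) (h2 : ∀ a, cp (v * x j) a ∉ A) {s : Set SS}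
    (hs : s.Nonempty) (hT : s ⊆ Tj v j) (hq : Cq (Rl D.Gt) s) :
    Nev (Rl D.Gt) 8 {a ∈ A | ∀ b ∈ s, Rl D.Gt b a} := by
  have nT : ∀ t, cp v (.inr (j, t)) ∉ A := fun t => cp_op v j t ▸ h2 _
  obtain ⟨p, hp⟩ := hs
  obtain ⟨tp, rfl⟩ := hT hp
  have := (nev_wall j {t | cp v (.inr (j, t)) ∈ s} ⟨tp, hp⟩ fun a ha b hb =>
    (rl_cp v _ _).1 (hq _ ha _ hb)).image (cp_injective v) (rl_cp v)
  convert this using 1
  ext y
  constructor
  · rintro ⟨hA, h⟩
    obtain ⟨a, rfl⟩ := (nb_wall (h _ hp)).resolve_right fun ⟨a, e⟩ => h2 a (e ▸ hA)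
    have n : ∀ t, a ≠ .inr (j, t) := fun t e => nT t (e ▸ hA)
    exact ⟨a, ⟨n, fun t ht => ((rl_cp v _ _).1 (h _ ht)).resolve_left (n t).symm⟩, rfl⟩
  · rintro ⟨a, ⟨n, h⟩, rfl⟩
    refine ⟨h1 a fun ⟨t, e⟩ => n t (cp_injective v e).symm, fun b hb => ?_⟩
    obtain ⟨t, rfl⟩ := hT hb
    exact (rl_cp v _ _).2 (Or.inr (h t hb))

/-- the hypothesis of the collar lemma -/
theorem lkAc_wall (k : Type) [CommRing k] {v : FreeGroup (Fin 3)} {j : Fin 3 × Bool} {A : Set SS}
    (h1 : ∀ a, cp v a ∉ Tj v j → cp v a ∈ A) (h2 : ∀ a, cp (v * x j) a ∉ A) :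
    LkAc k (Rl D.Gt) A (A ∪ Tj v j) := fun s hne hU hd hq => by
  have n := nev_link h1 h2 hne (fun a ha => (hU ha).resolve_left (disjoint_left.1 hd ha)) hq
  rw [show It (SA (Rl D.Gt) A) s = CU (Rl D.Gt) {a ∈ A | ∀ b ∈ (s : Set SS), Rl D.Gt b a} from
    funext (it_sa (Rl.refl _) (Rl.symm _) hne)]
  obtain ⟨a, ha⟩ := n.nonempty
  exact ⟨⟨_, fl_pt (Rl.refl _) ha⟩, n.ac (Rl.refl _) (Rl.symm _)⟩

end Crest.Agent.N255.Da
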