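import Crest.Agent.N255.Da.Tab
import Crest.Agent.N255.Pt.Loc

/-!
# Row 255 (helper36): the finite facts about the graph with 208 vertices
-/

set_option autoImplicit false
set_option linter.unusedSectionVars false

open Finsupp

noncomputable section

namespace Crest.Agent.N255.Da

open Ch Pt

section gen
variable {V K : Type} [DecidableEq V] [Fintype V] [LinearOrder K] {G : SimpleGraph V} {col : V → K}
  {U T t0 : Finset V} {z : Finset V → ℤ}

theorem lin_zero {X : Set (Finset V)} (φ : (Finset V →₀ ℤ) →ₗ[ℤ] ℤ)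
    (h : ∀ t ∈ X, φ (single t 1) = 0) {a : Finset V →₀ ℤ} (ha : a ∈ Sp X) : φ a = 0 := by
  rw [← a.sum_single, Finsupp.sum, map_sum]
  refine Finset.sum_eq_zero fun t ht => ?_
  rw [← smul_single_one, map_smul, h t (mem_Sp.1 ha t (mem_support_iff.1 ht)), smul_zero]

theorem pe_congr {a b : Finset V →₀ ℤ} (h : ∀ t, z t ≠ 0 → a t = b t) : pe z a = pe z b := by
  rw [linearCombination_apply, linearCombination_apply, Finsupp.sum_fintype _ _ (by simp),
    Finsupp.sum_fintype _ _ (by simp)]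
  refine Finset.sum_congr rfl fun t _ => ?_
  by_cases e : z t = 0
  · simp [e]
  · rw [h t e]

/-- a cycle of `T` kills the coboundaries of `U` -/
theorem pe_dq_sub (hT : T ⊆ U) (sup : ∀ t, z t ≠ 0 → t ∈ Q G T ∅)
    (cyc : ∀ t ∈ Q G T ∅, pe z (dq G col T (single t 1)) = 0) (a : Finset V →₀ ℤ) :
    pe z (dq G col U a) = 0 := by
  rw [pe_congr fun t ht => (dq_restrict hT a (sup t ht).2.2).symm]
  refine lin_zero (X := Set.univ) ((pe z).comp (dq G col T)) (fun t _ => ?_) (Sp_univ a)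
  by_cases e : t ∈ Q G T ∅
  · exact cyc t e
  · refine (pe_congr (b := 0) fun t' ht' => by_contra fun h => e ?_).trans (map_zero _)
    obtain ⟨hc, s, -, -, rfl⟩ := dq_ne h
    exact ⟨hc.subset (by simp), Finset.empty_subset _,
      (Finset.subset_insert _ _).trans (sup _ ht').2.2⟩

theorem top_of {n : ℕ} (hm : ∀ t ∈ Q G U ∅, t.card ≤ n) {t : Finset V} (ht : t ∈ Q G U t0)
    (hn : t.card = n) (hz : z t = 1 ∨ z t = -1) : Top (dq G col U) (pe z) (Sp (Q G U t0)) := by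
  refine ⟨single t (z t), single_mem ht _, ?_, ?_⟩
  · rw [← smul_single_one, map_smul, show dq G col U (single t 1) = 0 from ?_, smul_zero]
    ext t'
    by_contra h
    obtain ⟨hc, s, hs, hs', rfl⟩ := dq_ne h
    have := hm _ ⟨hc, Finset.empty_subset _, Finset.insert_subset hs ht.2.2⟩
    rw [Finset.card_insert_of_notMem hs'] at this
    omega
  · rw [linearCombination_single]
    rcases hz with e | e <;> simp [e]

theorem onto_of {ι : Type} [Fintype ι] [DecidableEq ι] (f : (Finset V →₀ ℤ) →ₗ[ℤ] ι → ℤ)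
    (h : ∀ i, ∃ b ∈ Sp (Q G U t0), dq G col U b = 0 ∧ f b = Pi.single i 1) (y : ι → ℤ) :
    ∃ a ∈ Sp (Q G U t0), dq G col U a = 0 ∧ f a = y := by
  choose b h1 h2 h3 using h
  refine ⟨∑ i, y i • b i, Submodule.sum_mem _ fun i _ => Submodule.smul_mem _ _ (h1 i), ?_, ?_⟩
  · simp only [map_sum, map_smul, h2, smul_zero, Finset.sum_const_zero]
  · simp only [map_sum, map_smul, h3]
    exact (pi_eq_sum_univ' y).symm

variable {enc : V → ℕ} {nb : ℕ → ℕ} {M : ℕ}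

theorem Code.top (hc : Code G enc nb M) {n : ℕ} {an : ℕ → ℤ} (han : ∀ μ, an μ = 1 ∨ an μ = -1)
    (h : ∀ τ ∈ Q G U ∅, ∃ l L, τ = TL enc l ∧ St G enc M U l L ∧ (L = 0 → l.length = n))
    (h0 : t0 ∈ Q G U ∅) : ∃ t ∈ Q G U t0, t.card = n ∧
      (gr G enc U n an t = 1 ∨ gr G enc U n an t = -1) := by
  obtain ⟨t, ht, hm⟩ := exists_max h0
  have ht' : t ∈ Q G U ∅ := ⟨ht.1, Finset.empty_subset _, ht.2.2⟩
  obtain ⟨l, L, rfl, hs, e⟩ := h t ht'
  have := (hc.card_TL l hs.vl).trans (e (hc.eq_zero hs.sub (hm _ hs.lk)))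
  exact ⟨_, ht, this, by rw [gr_of_mem ht', if_pos this]; exact han _⟩

theorem Code.all_iff (hc : Code G enc nb M) {l : List ℕ} (hl : Vl M l) (A : ℕ) :
    l.all A.testBit = true ↔ TL enc l ⊆ S enc A := by
  rw [List.all_eq_true]
  refine ⟨fun h v hv => mem_S.2 (h _ (mem_TL.1 hv)), fun h x hx => ?_⟩
  obtain ⟨v, rfl⟩ := hc.sur x (hl.2 x hx)
  exact mem_S.1 (h (mem_TL.2 hx))

end gen

theorem FM_bit (k : ℕ) : FM.testBit k = decide (k < 208) := Nat.testBit_two_pow_sub_one 208 k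

theorem FM_lt : FM < 2 ^ 208 := by decide +kernel

theorem code : Code D.Γ enc nb FM :=
  ⟨enc_inj, D_adj, fun _ h => enc_surj (by simpa [FM_bit] using h)⟩

theorem S_FM : S enc FM = Finset.univ :=
  Finset.eq_univ_of_forall fun v => mem_S.2 (by simpa [FM_bit] using enc_lt v)

theorem TM_bit (w k : ℕ) : (TM w).testBit k = true ↔ off w ≤ k ∧ k < off w + 16 := by
  rw [TM, Nat.testBit_shiftLeft, show 65535 = 2 ^ 16 - 1 from rfl, Nat.testBit_two_pow_sub_one]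
  simp only [Bool.and_eq_true, decide_eq_true_eq]
  omega

theorem sub_TM (j : Fin 3 × Bool) : Sub (TM (wn j)) FM := fun k h => by
  have := (TM_bit _ k).1 h
  have := wn_lt j
  simp only [FM_bit, off, decide_eq_true_eq] at *
  omega

theorem S_TM (j : Fin 3 × Bool) : S enc (TM (wn j)) = wT j := by
  ext v
  rw [mem_S, TM_bit, mem_wT, off]
  rcases v with a | ⟨i, t⟩
  · have := a.2
    simp only [enc, reduceCtorEq, exists_false, iff_false]
    omega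
  · have := t.2
    simp only [enc, Sum.inr.injEq, Prod.mk.injEq, exists_eq_right]
    exact ⟨fun h => wn_inj (by omega), fun h => by rw [h]; omega⟩

theorem hcn (u v : VV) : D.cv u < D.cv v ↔ cn (enc u) < cn (enc v) := by
  rw [Dt.cv, Dt.cv, D_col, D_col]; rfl

theorem hcol (u v : VV) (h : D.Γ.Adj u v) : D.cv u ≠ D.cv v := D.col_ne u v h

/-- the orientation -/
def oo : Finset VV → ℤ := gr D.Γ enc Finset.univ 4 oN

/-- the meridians -/
def mm (j : Fin 3 × Bool) : Finset VV → ℤ := gr D.Γ enc (wT j) 2 (mN (wn j))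

/-- the longitudes -/
def ll (j : Fin 3 × Bool) : Finset VV → ℤ := gr D.Γ enc (wT j) 2 (lN (wn j))

/-- minus the boundary orientations -/
def ww (j : Fin 3 × Bool) : Finset VV → ℤ := gr D.Γ enc (wT j) 3 (wN (wn j))

/-- the one cocycles -/
def xx (j : Fin 3 × Bool) : Finset VV →₀ ℤ := co D.Γ enc Finset.univ 2 (xN (wn j))

/-- the two cocycles -/
def yy (j : Fin 3 × Bool) : Finset VV →₀ ℤ := co D.Γ enc Finset.univ 3 (yN (wn j))

theorem msk_inW (j : Fin 3 × Bool) (u : Finset (Fin 16)) :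
    msk enc (u.map (inW j)) >>> off (wn j) = ∑ t ∈ u, 2 ^ (t : ℕ) := by
  rw [msk, Finset.sum_map, Nat.shiftRight_eq_div_pow]
  refine Nat.div_eq_of_eq_mul_right (by positivity) ?_
  rw [Finset.mul_sum]
  exact Finset.sum_congr rfl fun t _ => pow_add _ _ _

open Classical in
theorem gr_inW (j : Fin 3 × Bool) (u : Finset (Fin 16)) (n : ℕ) (an : ℕ → ℤ) :
    gr D.Γ enc (wT j) n (fun μ => an (μ >>> off (wn j))) (u.map (inW j)) =
      if (D.Tw j.1).IsClique u ∧ u.card = n then an (∑ t ∈ u, 2 ^ (t : ℕ)) else 0 := by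
  rw [gr, msk_inW, Finset.card_map]
  refine if_congr (and_congr_left' ?_) rfl rfl
  exact ⟨fun h => (clique_map (inW j) (D.adj_wall j) u).1 h.1, fun h =>
    ⟨(clique_map (inW j) (D.adj_wall j) u).2 h, Finset.empty_subset _,
      Finset.map_subset_map.2 (Finset.subset_univ _)⟩⟩

theorem par_op (j : Fin 3 × Bool) : (wn (op j) % 2 == 0) = !(wn j % 2 == 0) := by revert j; decide

theorem mm_op (j : Fin 3 × Bool) (u : Finset (Fin 16)) :
    mm (op j) (u.map (inW (op j))) = ll j (u.map (inW j)) := by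
  refine (gr_inW _ u 2 (m0 _)).trans (Eq.trans ?_ (gr_inW _ u 2 (l0 _)).symm)
  rw [op_fst, m0, l0, par_op, Bool.cond_not]

theorem ww_op (j : Fin 3 × Bool) (u : Finset (Fin 16)) :
    ww (op j) (u.map (inW (op j))) = -ww j (u.map (inW j)) := by
  refine (gr_inW _ u 3 (w0 _)).trans (Eq.trans ?_ (congrArg Neg.neg (gr_inW _ u 3 (w0 _)).symm))
  rw [op_fst, w0, w0, par_op]
  split_ifs
  · cases (wn j % 2 == 0) <;> simp
  · rfl

theorem wN_unit (w μ : ℕ) : wN w μ = 1 ∨ wN w μ = -1 := by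
  rw [wN, w0, omN]
  cases (w % 2 == 0) <;> cases (Nat.testBit _ _) <;> simp

theorem oN_unit (μ : ℕ) : oN μ = 1 ∨ oN μ = -1 := by
  rw [oN]
  cases (Nat.testBit _ _) <;> simp

theorem allT (j : Fin 3 × Bool) {τ : Finset VV} (h : τ ∈ Q D.Γ (wT j) ∅) :
    ∃ l L, τ = TL enc l ∧ St D.Γ enc FM (wT j) l L ∧ PT (wn j) l L = true := by
  rw [← S_TM] at h ⊢
  exact code.all (sub_TM j) (al_iff.1 chk_PT _ (wn_lt j)) h

theorem allO {τ : Finset VV} (h : τ ∈ Q D.Γ Finset.univ ∅) :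
    ∃ l L, τ = TL enc l ∧ St D.Γ enc FM Finset.univ l L ∧ PO l L = true := by
  rw [← S_FM] at h ⊢
  exact code.all (Sub.refl _) chk_PO h

theorem allX {τ : Finset VV} (h : τ ∈ Q D.Γ Finset.univ ∅) :
    ∃ l L, τ = TL enc l ∧ St D.Γ enc FM Finset.univ l L ∧ PX l L = true := by
  rw [← S_FM] at h ⊢
  exact code.all (Sub.refl _) chk_PX h

theorem pe_pN (j : Fin 3 × Bool) {U : Finset VV} (hU : wT j ⊆ U) (n k : ℕ) (zn an : ℕ → ℤ) :
    pe (gr D.Γ enc (wT j) n zn) (co D.Γ enc U k an) = pN (wn j) n k zn an := by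
  rw [← S_TM] at hU ⊢
  exact code.pe_co (sub_TM j) ((sub_TM j).lt FM_lt) hU n k zn an

theorem cycT (j : Fin 3 × Bool) {t : Finset VV} (h : t ∈ Q D.Γ (wT j) ∅) :
    pe (mm j) (dq D.Γ D.cv (wT j) (single t 1)) = 0 ∧ pe (ll j) (dq D.Γ D.cv (wT j) (single t 1)) = 0 ∧
      pe (ww j) (dq D.Γ D.cv (wT j) (single t 1)) = 0 ∧ t.card ≤ 3 := by
  obtain ⟨l, L, rfl, hs, e⟩ := allT j h
  simp only [PT, Bool.and_eq_true, beq_iff_eq, Nat.ble_eq] at e
  rw [mm, ll, ww, code.pe_dq hcn hs FM_lt, code.pe_dq hcn hs FM_lt, code.pe_dq hcn hs FM_lt,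
    code.card_TL l hs.vl]
  exact ⟨e.1.1.1.1.1.1.1, e.1.1.1.1.1.1.2, e.1.1.1.1.1.2, e.1.2⟩

theorem topT (j : Fin 3 × Bool) {t0 : Finset VV} (h : t0 ∈ Q D.Γ (wT j) ∅) :
    ∃ t ∈ Q D.Γ (wT j) t0, t.card = 3 ∧ (ww j t = 1 ∨ ww j t = -1) :=
  code.top (wN_unit _) (fun τ hτ => by
    obtain ⟨l, L, rfl, hs, e⟩ := allT j hτ
    simp only [PT, Bool.and_eq_true] at e
    exact ⟨l, L, rfl, hs, fun h => by simpa [h] using e.2⟩) h

theorem dqT (j : Fin 3 × Bool) : dq D.Γ D.cv (wT j) (co D.Γ enc (wT j) 2 (m1 (wn j))) = 0 ∧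
    dq D.Γ D.cv (wT j) (co D.Γ enc (wT j) 2 (l1 (wn j))) = 0 ∧
    dq D.Γ D.cv (wT j) (co D.Γ enc (wT j) 3 (w1 (wn j))) = 0 := by
  have := @allT j
  rw [← S_TM] at this ⊢
  refine ⟨code.dq_co hcn fun τ hτ => ?_, code.dq_co hcn fun τ hτ => ?_,
    code.dq_co hcn fun τ hτ => ?_⟩ <;>
  obtain ⟨l, L, rfl, hs, e⟩ := this hτ <;>
  simp only [PT, Bool.and_eq_true, beq_iff_eq] at e
  exacts [⟨l, L, rfl, hs, e.1.1.1.1.2⟩, ⟨l, L, rfl, hs, e.1.1.1.2⟩, ⟨l, L, rfl, hs, e.1.1.2⟩]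

theorem globT (j : Fin 3 × Bool) (y : Finset VV →₀ ℤ) (hy : y ∈ Sp (Q D.Γ (wT j) ∅))
    (hd : dq D.Γ D.cv (wT j) y = 0) (h1 : pe (mm j) y = 0) (h2 : pe (ll j) y = 0)
    (h3 : pe (ww j) y = 0) : ∃ a ∈ Sp (Q D.Γ (wT j) ∅), dq D.Γ D.cv (wT j) a = y := by
  have hg := code.runC_sound (eps := eps D.cv) eps_mul_self 30 (certT.map (off (wn j) + ·)) _ ∅
    (sub_TM j) (lk_empty _).ok
  rw [beq_iff_eq.1 (al_iff.1 chk_T _ (wn_lt j)), S_TM] at hg
  have hp := al_iff.1 chk_pT _ (wn_lt j)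
  simp only [Bool.and_eq_true, beq_iff_eq, ← pe_pN j (Finset.Subset.refl _)] at hp
  obtain ⟨⟨⟨⟨⟨⟨⟨⟨p1, p2⟩, p3⟩, p4⟩, p5⟩, p6⟩, p7⟩, p8⟩, p9⟩ := hp
  refine Gd.ex (ι := Fin 3) (lk_empty _) hcol (hg (by norm_num))
    (LinearMap.pi ![pe (mm j), pe (ll j), pe (ww j)]) (fun a ha => funext fun i => ?_)
    (onto_of _ fun i => ?_) hy hd (funext fun i => by fin_cases i <;> assumption)
  · fin_cases i
    exacts [lin_zero ((pe (mm j)).comp _) (fun t ht => (cycT j ht).1) ha,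
      lin_zero ((pe (ll j)).comp _) (fun t ht => (cycT j ht).2.1) ha,
      lin_zero ((pe (ww j)).comp _) (fun t ht => (cycT j ht).2.2.1) ha]
  · fin_cases i
    · exact ⟨_, co_mem _ _ _, (dqT j).1, funext fun i => by fin_cases i <;> assumption⟩
    · exact ⟨_, co_mem _ _ _, (dqT j).2.1, funext fun i => by fin_cases i <;> assumption⟩
    · exact ⟨_, co_mem _ _ _, (dqT j).2.2, funext fun i => by fin_cases i <;> assumption⟩

/-- the links in the walls -/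
def Lk3 : Prop := ∀ j, ∀ t0 ∈ Q D.Γ (wT j) ∅, t0.Nonempty →
  ∃ A, Lk D.Γ (wT j) t0 A ∧ Gd D.Γ (eps D.cv) t0 A 1

theorem torT (h3 : Lk3) (j : Fin 3 × Bool) : Ch.Tor D.Γ D.cv (wT j) (mm j) (ll j) (ww j) where
  m_sup := gr_sup
  l_sup := gr_sup
  ω_sup := gr_sup
  m_cyc _ h := (cycT j h).1
  l_cyc _ h := (cycT j h).2.1
  ω_cyc _ h := (cycT j h).2.2.1
  top _ h := let ⟨t, h1, h2⟩ := topT j h; ⟨t, h1, h2.2⟩
  link t0 h hn := by
    obtain ⟨A, hA, hg⟩ := h3 j t0 h hn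
    obtain ⟨t, h1, h2, h3⟩ := topT j h
    exact Gd.ex1 hA hcol hg _ (fun a ha => lin_zero ((pe (ww j)).comp _)
      (fun t ht => (cycT j ⟨ht.1, Finset.empty_subset _, ht.2.2⟩).2.2.1) ha)
      (top_of (fun t ht => (cycT j ht).2.2.2) h1 h2 h3)
  glob := globT j

theorem topC {t0 : Finset VV} (h : t0 ∈ Q D.Γ Finset.univ ∅) :
    ∃ t ∈ Q D.Γ Finset.univ t0, t.card = 4 ∧ (oo t = 1 ∨ oo t = -1) :=
  code.top oN_unit (fun τ hτ => by
    obtain ⟨l, L, rfl, hs, e⟩ := allO hτ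
    simp only [PO, Bool.and_eq_true] at e
    exact ⟨l, L, rfl, hs, fun h => by simpa [h] using e.1.1⟩) h

theorem st_in (t : Finset VV) (h : t ∈ Q D.Γ Finset.univ ∅) (hn : ∀ j, ¬t ⊆ wT j) :
    pe oo (dq D.Γ D.cv Finset.univ (single t 1)) = 0 := by
  obtain ⟨l, L, rfl, hs, e⟩ := allO h
  simp only [PO, Bool.and_eq_true] at e
  have : al (fun w => !l.all (TM w).testBit) 6 = true := al_iff.2 fun w hw => by
    obtain ⟨j, rfl⟩ := wn_surj hw
    rw [Bool.not_eq_true', Bool.eq_false_iff, Ne, code.all_iff hs.vl, S_TM]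
    exact hn j
  rw [oo, code.pe_dq hcn hs FM_lt]
  simpa [this] using e.2

theorem st_bd (j : Fin 3 × Bool) (t : Finset VV) (h : t ∈ Q D.Γ (wT j) ∅) :
    pe oo (dq D.Γ D.cv Finset.univ (single t 1)) + ww j t = 0 := by
  obtain ⟨l, L, rfl, hs, e⟩ := allO ⟨h.1, h.2.1, Finset.subset_univ _⟩
  simp only [PO, Bool.and_eq_true] at e
  have := al_iff.1 e.1.2 _ (wn_lt j)
  rw [(code.all_iff hs.vl _).2 (by rw [S_TM]; exact h.2.2)] at this
  rw [oo, ww, code.pe_dq hcn hs FM_lt, code.gr_TL hs.vl h]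
  simpa using this

theorem dqC (j : Fin 3 × Bool) :
    dq D.Γ D.cv Finset.univ (xx j) = 0 ∧ dq D.Γ D.cv Finset.univ (yy j) = 0 := by
  have := @allX
  rw [xx, yy]
  rw [← S_FM] at this ⊢
  refine ⟨code.dq_co hcn fun τ hτ => ?_, code.dq_co hcn fun τ hτ => ?_⟩ <;>
  obtain ⟨l, L, rfl, hs, e⟩ := this hτ <;>
  have e := al_iff.1 e _ (wn_lt j) <;>
  simp only [Bool.and_eq_true, beq_iff_eq] at e
  exacts [⟨l, L, rfl, hs, e.1⟩, ⟨l, L, rfl, hs, e.2⟩]

theorem dN_wn (i j : Fin 3 × Bool) : dN (wn i) (wn j) = if i = j then 1 else 0 := by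
  revert i j; decide

theorem perC (i j : Fin 3 × Bool) : (pe (mm i) (xx j) = (if i = j then 1 else 0) ∧
    pe (ll i) (xx j) = 0 ∧ pe (ww i) (xx j) = 0) ∧ pe (mm i) (yy j) = 0 ∧ pe (ll i) (yy j) = 0 ∧
    pe (ww i) (yy j) = (if i = j then 1 else 0) - if i = (0, false) then 1 else 0 := by
  have hp := al_iff.1 (al_iff.1 chk_pC _ (wn_lt j)) _ (wn_lt i)
  simp only [Bool.and_eq_true, beq_iff_eq, ← pe_pN i (Finset.subset_univ _)] at hp
  obtain ⟨⟨⟨⟨⟨p1, p2⟩, p3⟩, p4⟩, p5⟩, p6⟩ := hp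
  rw [← dN_wn, ← dN_wn]
  exact ⟨⟨p1, p2, p3⟩, p4, p5, p6⟩

theorem globC (x : Finset VV →₀ ℤ) (hx : x ∈ Sp (Q D.Γ Finset.univ ∅))
    (hd : dq D.Γ D.cv Finset.univ x = 0) (h : ∀ j, pe (mm j) x = 0 ∧ pe (ww j) x = 0) :
    ∃ a ∈ Sp (Q D.Γ Finset.univ ∅), dq D.Γ D.cv Finset.univ a = x := by
  have hg := code.runC_sound (eps := eps D.cv) eps_mul_self 300 certC _ ∅ (Sub.refl _)
    (lk_empty _).ok
  rw [chk_C, S_FM] at hg
  refine Gd.ex (ι := (Fin 3 × Bool) ⊕ {j : Fin 3 × Bool // j ≠ (0, false)}) (lk_empty _) hcol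
    (hg (by norm_num)) (LinearMap.pi (Sum.elim (fun j => pe (mm j)) fun j => pe (ww j.1)))
    (fun a _ => funext fun i => ?_) (onto_of _ fun i => ?_) hx hd
    (funext fun i => by rcases i with i | i; exacts [(h i).1, (h i.1).2])
  · rcases i with i | i
    · exact pe_dq_sub (Finset.subset_univ _) (fun t h => (gr_sup t h).1) (fun t h => (cycT i h).1) a
    · exact pe_dq_sub (Finset.subset_univ _) (fun t h => (gr_sup t h).1)
        (fun t h => (cycT i.1 h).2.2.1) a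
  · rcases i with j | j
    · refine ⟨xx j, co_mem _ _ _, (dqC j).1, funext fun i => ?_⟩
      rcases i with i | i
      · exact (perC i j).1.1.trans (by simp [Pi.single_apply])
      · exact (perC i.1 j).1.2.2.trans (by simp)
    · refine ⟨yy j.1, co_mem _ _ _, (dqC j.1).2, funext fun i => ?_⟩
      rcases i with i | i
      · exact (perC i j.1).2.1.trans (by simp)
      · exact (perC i.1 j.1).2.2.2.trans (by simp [Pi.single_apply, i.2, Subtype.ext_iff])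

/-- the links in `C` -/
def Lk1 : Prop := ∀ t0 ∈ Q D.Γ Finset.univ ∅, t0.Nonempty →
  ∃ A, Lk D.Γ Finset.univ t0 A ∧ Gd D.Γ (eps D.cv) t0 A 1

/-- the links in `C` of the cliques of the walls -/
def Lk2 : Prop := ∀ j, ∀ t0 ∈ Q D.Γ (wT j) ∅, t0.Nonempty →
  ∃ A, Lk D.Γ Finset.univ t0 A ∧ Gd D.Γ (eps D.cv) t0 A 0

theorem walC (h1 : Lk1) (h2 : Lk2) : Wal D.Γ D.cv Set.univ Finset.univ wT oo mm ll ww where
  o_sup := gr_sup
  top _ h := let ⟨t, a, b⟩ := topC h; ⟨t, a, b.2⟩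
  st_in t h hn := st_in t h fun j => hn j trivial
  st_bd j _ := st_bd j
  link_in t0 h hn hj := by
    obtain ⟨A, hA, hg⟩ := h1 t0 h hn
    obtain ⟨t, a, b, c⟩ := topC h
    exact Gd.ex1 hA hcol hg _ (fun a ha => lin_zero ((pe oo).comp _) (fun t ht =>
      st_in t ⟨ht.1, Finset.empty_subset _, ht.2.2⟩ fun j e => hj j trivial (ht.2.1.trans e)) ha)
      (top_of (fun t ht => D.dim0 t ht.1) a b c)
  link_bd j _ t0 h hn := by
    obtain ⟨A, hA, hg⟩ := h2 j t0 h hn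
    exact fun b hb hd _ => Gd.ex0 hA hcol hg hb hd
  glob x hx hd h := globC x hx hd fun j => h j trivial
  one j _ := ⟨xx j, co_mem _ _ _, (dqC j).1, fun i _ => (perC i j).1⟩
  two := ⟨(0, false), fun j _ => ⟨yy j, co_mem _ _ _, (dqC j).2, fun i _ => (perC i j).2⟩⟩

/-- **the finite facts**, from the links -/
def fcOf (h1 : Lk1) (h2 : Lk2) (h3 : Lk3) : D.Fc :=
  ⟨oo, mm, ll, ww, mm_op, ww_op, torT h3, walC h1 h2⟩

end Crest.Agent.N255.Da

end
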