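import Crest.Agent.N255.Da.Fc
import Crest.Agent.N255.Da.Col
import Crest.Agent.N255.Gd.Lab
import Crest.Agent.N255.Md.Cf

/-!
# Row 255 (helper36): periods of the seams over the meridians, longitudes and orientations of the walls
-/

set_option autoImplicit false

noncomputable section

namespace Crest.Agent.N255.Da

open Pt Md

section gen
variable {T S K A : Type} [Fintype T] [DecidableEq T] [LinearOrder K] [AddCommGroup A]

theorem sum_s1 {c : T → K} {z : Finset T → ℤ} (h : ∀ u, z u ≠ 0 → u.card = 2) (f : T → T → A) :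
    ∑ u, z u • s1 c f u = ∑ p, ∑ q, if c p < c q then z {p, q} • f p q else 0 := by
  have e : ∀ u : Finset T, s1 c f u = ∑ p, ∑ q, if p ∈ u ∧ q ∈ u ∧ c p < c q then f p q else 0 :=
    fun u => by simp [s1, ite_and]
  simp only [e, Finset.smul_sum]
  rw [Finset.sum_comm]
  refine Finset.sum_congr rfl fun p _ => ?_
  rw [Finset.sum_comm]
  refine Finset.sum_congr rfl fun q _ => ?_
  by_cases l : c p < c q
  · rw [Finset.sum_eq_single {p, q} (fun u _ hu => ?_) (by simp)]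
    · simp [l]
    · split_ifs with a
      · rw [show z u = 0 from by_contra fun n => hu ?_, zero_smul]
        refine (Finset.eq_of_subset_of_card_le (by simp [Finset.insert_subset_iff, a.1, a.2.1]) ?_).symm
        rw [h u n, Finset.card_pair fun e => l.ne (congrArg c e)]
      · exact smul_zero _
  · simp [l]

theorem sum_s2 {c : T → K} {z : Finset T → ℤ} (h : ∀ u, z u ≠ 0 → u.card = 3) (f : T → T → T → A) :
    ∑ u, z u • s2 c f u =
      ∑ p, ∑ q, ∑ r, if c p < c q ∧ c q < c r then z {p, q, r} • f p q r else 0 := by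
  have e : ∀ u : Finset T, s2 c f u = ∑ p, ∑ q, ∑ r,
      if p ∈ u ∧ q ∈ u ∧ r ∈ u ∧ c p < c q ∧ c q < c r then f p q r else 0 :=
    fun u => by simp [s2, ite_and]
  simp only [e, Finset.smul_sum]
  rw [Finset.sum_comm]
  refine Finset.sum_congr rfl fun p _ => ?_
  rw [Finset.sum_comm]
  refine Finset.sum_congr rfl fun q _ => ?_
  rw [Finset.sum_comm]
  refine Finset.sum_congr rfl fun r _ => ?_
  by_cases l : c p < c q ∧ c q < c r
  · rw [Finset.sum_eq_single {p, q, r} (fun u _ hu => ?_) (by simp)]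
    · simp [l]
    · split_ifs with a
      · rw [show z u = 0 from by_contra fun n => hu ?_, zero_smul]
        refine (Finset.eq_of_subset_of_card_le
          (by simp [Finset.insert_subset_iff, a.1, a.2.1, a.2.2.1]) ?_).symm
        rw [h u n, Finset.card_eq_three.2 ⟨p, q, r, fun e => l.1.ne (congrArg c e),
          fun e => (l.1.trans l.2).ne (congrArg c e), fun e => l.2.ne (congrArg c e), rfl⟩]
      · exact smul_zero _
  · simp [l]

omit [DecidableEq T] in
theorem pA_map (E : T ↪ S) {z : Finset S → ℤ} (h : ∀ t, z t ≠ 0 → t ⊆ Finset.univ.map E) {U : Finset S}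
    (hU : Finset.univ.map E ⊆ U) (a : Finset S → A) :
    pA z U a = ∑ u : Finset T, z (u.map E) • a (u.map E) := by
  rw [pA_mono h hU, pA]
  refine (Finset.sum_bij (fun u _ => u.map E) (fun u _ => Finset.mem_powerset.2
    (Finset.map_subset_map.2 (Finset.subset_univ u))) (fun _ _ _ _ e => Finset.map_injective E e)
    (fun t ht => ?_) fun _ _ => rfl).symm
  obtain ⟨u, -, rfl⟩ := Finset.subset_map_iff.1 (Finset.mem_powerset.1 ht)
  exact ⟨u, Finset.mem_univ u, rfl⟩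

omit [Fintype T] [DecidableEq T] in
theorem s1_map (E : T ↪ S) (c : S → K) (φ : S → S → A) (u : Finset T) :
    s1 c φ (u.map E) = s1 (fun p => c (E p)) (fun p q => φ (E p) (E q)) u := by
  simp only [s1, Finset.sum_map]

omit [Fintype T] [DecidableEq T] in
theorem s2_map (E : T ↪ S) (c : S → K) (φ : S → S → S → A) (u : Finset T) :
    s2 c φ (u.map E) = s2 (fun p => c (E p)) (fun p q r => φ (E p) (E q) (E r)) u := by
  simp only [s2, Finset.sum_map]

end gen

/-- the label `p` of the wall of the half edge `e` -/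
def wa (e : Ed (Fin 3)) (p : Fin 16) : SS := cp e.v (.inr (e.k, p))

theorem wa_op (e : Ed (Fin 3)) (p : Fin 16) : wa (loc.op e) p = wa e p := cp_op e.v e.k p

theorem wa_inj (e : Ed (Fin 3)) : Function.Injective (wa e) := ((inW e.k).trans (cpE e.v)).injective

theorem mem_wall {e : Ed (Fin 3)} {a : SS} : a ∈ D.mir.sp (D.mir.tgt e) ↔ ∃ p, wa e p = a := by
  rw [Dt.mir_sp, Dt.mir_tgt, Dt.sp_tgt', wT, Finset.map_map]
  simp [wa]

theorem adj_wa (e : Ed (Fin 3)) (p q : Fin 16) :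
    D.mir.Γ.Adj (wa e p) (wa e q) ↔ (tg p).testBit q = true :=
  (D.adj_cp e.v _ _).trans (adj_wall e.k p q)

theorem col_wa (e : Ed (Fin 3)) (p : Fin 16) : D.mir.col (wa e p) = c4 (112 + p) :=
  D.cl_cp e.v (.inr (e.k, p))

/-- coefficients on sorted edges -/
def c1 (an : ℕ → ℤ) (p q : Fin 16) : ℤ :=
  bif (tg p).testBit q && Nat.blt (cn (112 + p)) (cn (112 + q)) then an (2 ^ (p : ℕ) + 2 ^ (q : ℕ))
  else 0

/-- coefficients on sorted triangles -/
def c2 (an : ℕ → ℤ) (p q r : Fin 16) : ℤ :=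
  bif (tg p).testBit q && (tg p).testBit r && (tg q).testBit r && Nat.blt (cn (112 + p)) (cn (112 + q)) &&
    Nat.blt (cn (112 + q)) (cn (112 + r)) then an (2 ^ (p : ℕ) + (2 ^ (q : ℕ) + 2 ^ (r : ℕ))) else 0

theorem blt_t {u v : ℕ} (h : c4 u < c4 v) : Nat.blt (cn u) (cn v) = true := Nat.blt_eq.mpr h

theorem blt_f {u v : ℕ} (h : ¬c4 u < c4 v) : Nat.blt (cn u) (cn v) = false :=
  Bool.eq_false_iff.2 fun k => h (Nat.blt_eq.mp k)

variable {A : Type} [AddCommGroup A]

theorem pA_gr (e : Ed (Fin 3)) (n : ℕ) (an : ℕ → ℤ) {U : Finset SS} (hU : D.mir.sp (D.mir.tgt e) ⊆ U)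
    (a : Finset SS → A) :
    pA (ps (cpE e.v) (gr D.Γ enc (wT e.k) n fun μ => an (μ >>> off (wn e.k)))) U a =
      open Classical in ∑ u : Finset (Fin 16), (if (D.Tw e.k.1).IsClique u ∧ u.card = n then
        an (∑ t ∈ u, 2 ^ (t : ℕ)) else 0) • a (u.map ((inW e.k).trans (cpE e.v))) := by
  rw [pA_map ((inW e.k).trans (cpE e.v)) (fun t ht => ?_) (by
    rwa [Dt.mir_sp, Dt.mir_tgt, Dt.sp_tgt', wT, Finset.map_map] at hU)]
  · refine Finset.sum_congr rfl fun u _ => ?_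
    rw [← Finset.map_map, ps_map, gr_inW]
  · obtain ⟨u, rfl, hu⟩ := ps_ne _ ht
    rw [← Finset.map_map]
    exact Finset.map_subset_map.2 (gr_sup u hu).1.2.2

theorem pA_one (e : Ed (Fin 3)) (an : ℕ → ℤ) {U : Finset SS} (hU : D.mir.sp (D.mir.tgt e) ⊆ U)
    (φ : SS → SS → A) :
    pA (ps (cpE e.v) (gr D.Γ enc (wT e.k) 2 fun μ => an (μ >>> off (wn e.k)))) U (s1 D.mir.col φ) =
      ∑ p, ∑ q, c1 an p q • φ (wa e p) (wa e q) := by
  rw [pA_gr e 2 an hU]
  simp only [s1_map]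
  rw [sum_s1 fun u h => by_contra fun n => h (if_neg fun k => n k.2)]
  refine Finset.sum_congr rfl fun p _ => Finset.sum_congr rfl fun q _ => ?_
  change (if D.mir.col (wa e p) < D.mir.col (wa e q) then _ • φ (wa e p) (wa e q) else 0) = _
  rw [col_wa, col_wa, c1]
  by_cases l : c4 (112 + p) < c4 (112 + q)
  · have n : p ≠ q := fun e => l.ne (e ▸ rfl)
    rw [if_pos l, blt_t l, Bool.and_true, Finset.sum_pair n, Finset.card_pair n]
    cases h : (tg p).testBit q <;> simp [n, Tw_adj, h]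
  · rw [if_neg l, blt_f l]
    simp

theorem pA_two (e : Ed (Fin 3)) (an : ℕ → ℤ) {U : Finset SS} (hU : D.mir.sp (D.mir.tgt e) ⊆ U)
    (φ : SS → SS → SS → A) :
    pA (ps (cpE e.v) (gr D.Γ enc (wT e.k) 3 fun μ => an (μ >>> off (wn e.k)))) U (s2 D.mir.col φ) =
      ∑ p, ∑ q, ∑ r, c2 an p q r • φ (wa e p) (wa e q) (wa e r) := by
  rw [pA_gr e 3 an hU]
  simp only [s2_map]
  rw [sum_s2 fun u h => by_contra fun n => h (if_neg fun k => n k.2)]
  refine Finset.sum_congr rfl fun p _ => Finset.sum_congr rfl fun q _ =>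
    Finset.sum_congr rfl fun r _ => ?_
  change (if D.mir.col (wa e p) < D.mir.col (wa e q) ∧ D.mir.col (wa e q) < D.mir.col (wa e r) then
    _ • φ (wa e p) (wa e q) (wa e r) else 0) = _
  rw [col_wa, col_wa, col_wa, c2]
  by_cases l : c4 (112 + p) < c4 (112 + q) ∧ c4 (112 + q) < c4 (112 + r)
  · have n1 : p ≠ q := fun e => l.1.ne (e ▸ rfl)
    have n2 : q ≠ r := fun e => l.2.ne (e ▸ rfl)
    have n3 : p ≠ r := fun e => (l.1.trans l.2).ne (e ▸ rfl)
    have m : p ∉ ({q, r} : Finset (Fin 16)) := by simp [n1, n3]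
    rw [if_pos l, blt_t l.1, blt_t l.2, Bool.and_true, Bool.and_true,
      Finset.sum_insert m, Finset.sum_pair n2]
    simp only [← SimpleGraph.isNClique_iff, SimpleGraph.is3Clique_triple_iff, Tw_adj]
    cases (tg p).testBit q <;> cases (tg p).testBit r <;> cases (tg q).testBit r <;> simp
  · rw [if_neg l]
    rcases not_and_or.1 l with l | l <;>
      simp [blt_f l]

theorem loc_op (e : Ed (Fin 3)) : loc.op e = ⟨e.v * x e.k, op e.k⟩ := rfl

/-- periods over meridians in the labels -/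
theorem pA_m (e : Ed (Fin 3)) {U : Finset SS} (hU : D.mir.sp (D.mir.tgt e) ⊆ U) (φ : SS → SS → A) :
    pA (loc.m e) U (s1 D.mir.col φ) = ∑ p, ∑ q, c1 (m0 (wn e.k)) p q • φ (wa e p) (wa e q) :=
  pA_one e _ hU φ

/-- periods over longitudes in the labels -/
theorem pA_l (e : Ed (Fin 3)) {U : Finset SS} (hU : D.mir.sp (D.mir.tgt e) ⊆ U) (φ : SS → SS → A) :
    pA (loc.m (loc.op e)) U (s1 D.mir.col φ) = ∑ p, ∑ q, c1 (l0 (wn e.k)) p q • φ (wa e p) (wa e q) := by
  rw [show loc.m (loc.op e) = _ from fc.m_eq e.v e.k]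
  exact pA_one e _ hU φ

/-- periods over orientations in the labels -/
theorem pA_ω (e : Ed (Fin 3)) {U : Finset SS} (hU : D.mir.sp (D.mir.tgt e) ⊆ U)
    (φ : SS → SS → SS → A) : pA (loc.ω e) U (s2 D.mir.col φ) =
      ∑ p, ∑ q, ∑ r, c2 (w0 (wn e.k)) p q r • φ (wa e p) (wa e q) (wa e r) :=
  pA_two e _ hU φ

theorem chk_m : ∀ (j : Fin 3 × Bool) (b : Bool),
    ∑ p, ∑ q, c1 (m0 (wn j)) p q * Gd.se b p q = if b = j.2 then 1 else 0 := by decide +kernel

theorem chk_l : ∀ (j : Fin 3 × Bool) (b : Bool),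
    ∑ p, ∑ q, c1 (l0 (wn j)) p q * Gd.se b p q = if b = j.2 then 0 else 1 := by decide +kernel

theorem chk_ω : ∀ (j : Fin 3 × Bool) (b b' : Bool),
    ∑ p, ∑ q, ∑ r, c2 (w0 (wn j)) p q r * (Gd.se b p q * Gd.se b' q r) =
      if b = b' then 0 else if b = j.2 then -1 else 1 := by decide +kernel

theorem c1_ne {an : ℕ → ℤ} {p q : Fin 16} (h : ¬(tg p).testBit q = true) : c1 an p q = 0 := by
  simp [c1, h]

theorem c2_ne {an : ℕ → ℤ} {p q r : Fin 16}
    (h : ¬((tg p).testBit q = true ∧ (tg p).testBit r = true ∧ (tg q).testBit r = true)) :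
    c2 an p q r = 0 := by
  rcases not_and_or.1 h with h | h
  · simp [c2, h]
  · rcases not_and_or.1 h with h | h <;> simp [c2, h]

theorem sum_c1 (an : ℕ → ℤ) (e : Ed (Fin 3)) {φ : SS → SS → A} {f : Fin 16 → Fin 16 → ℤ} {a : A}
    (h : ∀ p q, D.mir.Γ.Adj (wa e p) (wa e q) → φ (wa e p) (wa e q) = f p q • a) :
    ∑ p, ∑ q, c1 an p q • φ (wa e p) (wa e q) = (∑ p, ∑ q, c1 an p q * f p q) • a := by
  simp only [Finset.sum_smul]
  refine Finset.sum_congr rfl fun p _ => Finset.sum_congr rfl fun q _ => ?_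
  by_cases c : (tg p).testBit q = true
  · rw [h p q ((adj_wa e p q).2 c), mul_smul]
  · simp [c1_ne c]

/-- **the period of a seam over a meridian** -/
theorem per_m (e : Ed (Fin 3)) {U : Finset SS} (hU : D.mir.sp (D.mir.tgt e) ⊆ U) {φ : SS → SS → A}
    {b : Bool} {a : A} (h : ∀ p q, D.mir.Γ.Adj (wa e p) (wa e q) → φ (wa e p) (wa e q) = Gd.se b p q • a) :
    pA (loc.m e) U (s1 D.mir.col φ) = if b = e.k.2 then a else 0 := by
  rw [pA_m e hU, sum_c1 _ e h, chk_m]; simp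

/-- **the period of a seam over a longitude** -/
theorem per_l (e : Ed (Fin 3)) {U : Finset SS} (hU : D.mir.sp (D.mir.tgt e) ⊆ U) {φ : SS → SS → A}
    {b : Bool} {a : A} (h : ∀ p q, D.mir.Γ.Adj (wa e p) (wa e q) → φ (wa e p) (wa e q) = Gd.se b p q • a) :
    pA (loc.m (loc.op e)) U (s1 D.mir.col φ) = if b = e.k.2 then 0 else a := by
  rw [pA_l e hU, sum_c1 _ e h, chk_l]; simp

/-- **the period of a product of seams**: `mer ∪ lon` has period `-1`, `lon ∪ mer` has period `1` -/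
theorem per_ω (e : Ed (Fin 3)) {U : Finset SS} (hU : D.mir.sp (D.mir.tgt e) ⊆ U)
    {φ : SS → SS → SS → A} {b b' : Bool} {a : A} (h : ∀ p q r, D.mir.Γ.Adj (wa e p) (wa e q) →
      D.mir.Γ.Adj (wa e p) (wa e r) → D.mir.Γ.Adj (wa e q) (wa e r) →
      φ (wa e p) (wa e q) (wa e r) = (Gd.se b p q * Gd.se b' q r) • a) :
    pA (loc.ω e) U (s2 D.mir.col φ) = if b = b' then 0 else if b = e.k.2 then -a else a := by
  have : ∑ p, ∑ q, ∑ r, c2 (w0 (wn e.k)) p q r • φ (wa e p) (wa e q) (wa e r) =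
      (∑ p, ∑ q, ∑ r, c2 (w0 (wn e.k)) p q r * (Gd.se b p q * Gd.se b' q r)) • a := by
    simp only [Finset.sum_smul]
    refine Finset.sum_congr rfl fun p _ => Finset.sum_congr rfl fun q _ =>
      Finset.sum_congr rfl fun r _ => ?_
    by_cases c : (tg p).testBit q = true ∧ (tg p).testBit r = true ∧ (tg q).testBit r = true
    · rw [h p q r ((adj_wa e _ _).2 c.1) ((adj_wa e _ _).2 c.2.1) ((adj_wa e _ _).2 c.2.2), ← mul_smul]
    · simp [c2_ne c]
  rw [pA_ω e hU, this, chk_ω]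
  split_ifs <;> simp

/-- functions that vanish on the edges of the wall have no period -/
theorem per_zero (e : Ed (Fin 3)) {U : Finset SS} (hU : D.mir.sp (D.mir.tgt e) ⊆ U) {φ : SS → SS → A}
    (h : ∀ p q, D.mir.Γ.Adj (wa e p) (wa e q) → φ (wa e p) (wa e q) = 0) :
    pA (loc.m e) U (s1 D.mir.col φ) = 0 := by
  rw [per_m e hU (b := true) (a := 0) fun p q c => by rw [h p q c, smul_zero], ite_self]

/-! ### the seams and the classes `xi` on the labels of the model -/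

/-- the torus coordinate of a label -/
def tl (a : SS) : Fin 16 := Sum.elim (fun _ => 0) Prod.snd a.k

@[simp] theorem tl_wa (e : Ed (Fin 3)) (p : Fin 16) : tl (wa e p) = p := rfl

theorem tl_smul (f : FreeGroup (Fin 3)) (a : SS) : tl (f • a) = tl a := rfl

/-- the seams on the walls: `sea e.k.2` is the meridian class, `sea (!e.k.2)` the longitude class of `e` -/
def sea (b : Bool) (a a' : SS) : ℤ := Gd.se b (tl a) (tl a')

theorem cl_cp (v : FreeGroup (Fin 3)) (a b : VV) : Cl D.mir.Γ (cp v a) (cp v b) ↔ Gd.Cl a b :=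
  or_congr (cp_injective v).eq_iff (D.adj_cp v a b)

theorem sea_z1 (b : Bool) (e : Ed (Fin 3)) : Z1 D.mir.Γ (D.mir.sp (D.mir.tgt e)) (sea b) := by
  intro _ h1 _ h2 _ h3 c1 c2 c3
  obtain ⟨p, rfl⟩ := mem_wall.1 h1
  obtain ⟨q, rfl⟩ := mem_wall.1 h2
  obtain ⟨r, rfl⟩ := mem_wall.1 h3
  exact Gd.se_coc b e.k ((cl_cp _ _ _).1 c1) ((cl_cp _ _ _).1 c2) ((cl_cp _ _ _).1 c3)

theorem per_sea_m (e : Ed (Fin 3)) {U : Finset SS} (hU : D.mir.sp (D.mir.tgt e) ⊆ U) (b : Bool) :
    pA (loc.m e) U (s1 D.mir.col (sea b)) = if b = e.k.2 then 1 else 0 :=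
  per_m e hU fun _ _ _ => (mul_one _).symm

theorem per_sea_l (e : Ed (Fin 3)) {U : Finset SS} (hU : D.mir.sp (D.mir.tgt e) ⊆ U) (b : Bool) :
    pA (loc.m (loc.op e)) U (s1 D.mir.col (sea b)) = if b = e.k.2 then 0 else 1 :=
  per_l e hU fun _ _ _ => (mul_one _).symm

theorem per_sea_ω (e : Ed (Fin 3)) {U : Finset SS} (hU : D.mir.sp (D.mir.tgt e) ⊆ U) (b b' : Bool) :
    pA (loc.ω e) U (s2 D.mir.col fun a a' a'' => sea b a a' * sea b' a' a'') =
      if b = b' then 0 else if b = e.k.2 then -1 else 1 :=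
  per_ω e hU fun _ _ _ _ _ _ => (mul_one _).symm

/-- extension by zero of a function on pairs of vertices of the chamber `v` -/
def ex {B : Type} [Zero B] (v : FreeGroup (Fin 3)) (f : VV → VV → B) (a a' : SS) : B :=
  Function.extend (Prod.map (cp v) (cp v)) (fun q => f q.1 q.2) 0 (a, a')

theorem ex_cp {B : Type} [Zero B] (v : FreeGroup (Fin 3)) (f : VV → VV → B) (a a' : VV) :
    ex v f (cp v a) (cp v a') = f a a' :=
  ((cp_injective v).prodMap (cp_injective v)).extend_apply _ _ (a, a')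

theorem ex_not {B : Type} [Zero B] {v : FreeGroup (Fin 3)} (f : VV → VV → B) {a a' : SS}
    (h : ¬(a ∈ Set.range (cp v) ∧ a' ∈ Set.range (cp v))) : ex v f a a' = 0 :=
  Function.extend_apply' _ _ _ fun ⟨q, e⟩ => h ⟨⟨q.1, congrArg Prod.fst e⟩, q.2, congrArg Prod.snd e⟩

theorem ex_smul {B : Type} [Zero B] (g v : FreeGroup (Fin 3)) (f : VV → VV → B) (a a' : SS) :
    ex (g * v) f (g • a) (g • a') = ex v f a a' := by
  by_cases h : a ∈ Set.range (cp v) ∧ a' ∈ Set.range (cp v)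
  · obtain ⟨⟨a, rfl⟩, a', rfl⟩ := h
    rw [smul_cp, smul_cp, ex_cp, ex_cp]
  · rw [ex_not f h, ex_not f fun ⟨⟨b, e⟩, b', e'⟩ =>
      h ⟨⟨b, MulAction.injective g ((smul_cp g v b).trans e)⟩, b',
        MulAction.injective g ((smul_cp g v b').trans e')⟩]

/-- two labels of the chamber `v` that lie in another chamber `u` lie on the wall towards `u` -/
theorem two_wall {v u : FreeGroup (Fin 3)} (n : u ≠ v) {a a' : SS} (h : a ∈ Set.range (cp v))
    (h' : a' ∈ Set.range (cp v)) (k : a ∈ Set.range (cp u)) (k' : a' ∈ Set.range (cp u)) :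
    ∃ j p q, u = v * x j ∧ a = wa ⟨v, j⟩ p ∧ a' = wa ⟨v, j⟩ q := by
  obtain ⟨j, p, rfl, rfl⟩ := two_cp h k n
  obtain ⟨j', q, e, rfl⟩ := two_cp h' k' n
  obtain rfl : j = j' := x_injective (mul_left_cancel e)
  exact ⟨j, p, q, rfl, rfl, rfl⟩

/-- the class dual to the meridian of `e`, supported in the chamber behind `e` -/
def xi (e : Ed (Fin 3)) : SS → SS → ℤ := ex e.v (Gd.x e.k)

theorem xi_smul (f : FreeGroup (Fin 3)) (e : Ed (Fin 3)) (a a' : SS) :
    xi (f • e) (f • a) (f • a') = xi e a a' := ex_smul f e.v _ a a'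

theorem xi_cp (e : Ed (Fin 3)) (a a' : VV) : xi e (cp e.v a) (cp e.v a') = Gd.x e.k a a' := ex_cp _ _ _ _

/-- in the other chambers (not the one beyond `e`) the class `xi e` vanishes -/
theorem xi_other {e : Ed (Fin 3)} {u : FreeGroup (Fin 3)} (n : u ≠ e.v) (n' : u ≠ e.v * x e.k) {a a' : SS}
    (k : a ∈ Set.range (cp u)) (k' : a' ∈ Set.range (cp u)) (c : Cl D.mir.Γ a a') : xi e a a' = 0 := by
  by_cases h : a ∈ Set.range (cp e.v) ∧ a' ∈ Set.range (cp e.v)
  · obtain ⟨j, p, q, rfl, rfl, rfl⟩ := two_wall n h.1 h.2 k k'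
    exact (xi_cp e _ _).trans ((Gd.x_wall _ _ ((cl_cp _ _ _).1 c)).trans (if_neg fun k : e.k = j => n' (k ▸ rfl)))
  · exact ex_not _ h

theorem exists_cham {a b c : SS} (h1 : Cl D.mir.Γ a b) (h2 : Cl D.mir.Γ a c) (h3 : Cl D.mir.Γ b c) :
    ∃ u, a ∈ Set.range (cp u) ∧ b ∈ Set.range (cp u) ∧ c ∈ Set.range (cp u) := by
  obtain ⟨u, hu⟩ := D.helly (A := {a, b, c}) (by
    have k : ∀ {x y : SS}, Cl D.mir.Γ x y → x ≠ y → D.Gt.Adj x y := fun h n => h.resolve_left n
    intro x hx y hy n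
    simp only [Set.mem_insert_iff, Set.mem_singleton_iff] at hx hy
    rcases hx with rfl | rfl | rfl <;> rcases hy with rfl | rfl | rfl <;>
      first | exact absurd rfl n | exact k (by assumption) n | exact k (Cl.symm (by assumption)) n)
  exact ⟨u, hu (by simp), hu (by simp), hu (by simp)⟩

/-- `xi e` is closed on every set of labels without labels strictly inside the chamber beyond `e` -/
theorem xi_z1 (e : Ed (Fin 3)) {U : Set SS}
    (hU : ∀ a ∈ U, a ∈ Set.range (cp (e.v * x e.k)) → a ∈ Set.range (cp e.v)) : Z1 D.mir.Γ U (xi e) := by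
  intro a ha b hb c hc h1 h2 h3
  have k : a ∈ Set.range (cp e.v) → b ∈ Set.range (cp e.v) → c ∈ Set.range (cp e.v) →
      xi e a c = xi e a b + xi e b c := by
    rintro ⟨a, rfl⟩ ⟨b, rfl⟩ ⟨c, rfl⟩
    rw [xi_cp, xi_cp, xi_cp]
    exact Gd.x_coc _ ((cl_cp _ _ _).1 h1) ((cl_cp _ _ _).1 h2) ((cl_cp _ _ _).1 h3)
  obtain ⟨u, ua, ub, uc⟩ := exists_cham h1 h2 h3
  by_cases n : u = e.v
  · subst n; exact k ua ub uc
  by_cases n' : u = e.v * x e.k
  · subst n'; exact k (hU a ha ua) (hU b hb ub) (hU c hc uc)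
  rw [xi_other n n' ua uc h2, xi_other n n' ua ub h1, xi_other n n' ub uc h3, add_zero]

theorem xi_wa (e : Ed (Fin 3)) {p q : Fin 16} (c : Cl D.mir.Γ (wa e p) (wa e q)) :
    xi e (wa e p) (wa e q) = Gd.se e.k.2 p q :=
  (xi_cp e _ _).trans ((Gd.x_wall _ _ ((cl_cp _ _ _).1 c)).trans (if_pos rfl))

theorem xi_wa_ne {e e' : Ed (Fin 3)} (n : e' ≠ e) (n' : e' ≠ loc.op e) {p q : Fin 16}
    (c : Cl D.mir.Γ (wa e' p) (wa e' q)) : xi e (wa e' p) (wa e' q) = 0 := by
  by_cases h : e'.v = e.v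
  · have := (xi_cp e (.inr (e'.k, p)) (.inr (e'.k, q))).trans ((Gd.x_wall _ _ ((cl_cp _ _ _).1 c)).trans
      (if_neg fun k => n (L.ext h k.symm)))
    rwa [← h] at this
  by_cases h' : e'.v = e.v * x e.k
  · refine ex_not _ fun k => ?_
    obtain ⟨j, t, e1, e2⟩ := two_cp k.1 ⟨_, rfl⟩ h
    obtain rfl : e.k = j := x_injective (mul_left_cancel (h'.symm.trans e1))
    rw [← cp_op, ← h'] at e2
    exact n' (L.ext h' (congrArg Prod.fst (Sum.inr_injective (cp_injective _ e2))))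
  · exact xi_other h h' ⟨_, rfl⟩ ⟨_, rfl⟩ c

/-- **the classes `xi` are dual to the meridians** -/
theorem per_xi (e e' : Ed (Fin 3)) {U : Finset SS} (hU : D.mir.sp (D.mir.tgt e') ⊆ U) :
    pA (loc.m e') U (s1 D.mir.col (xi e)) = if e' = e then 1 else 0 := by
  split_ifs with h
  · subst h
    exact (per_m e' hU fun p q c => (xi_wa e' (.inr c)).trans (mul_one _).symm).trans (if_pos rfl)
  by_cases h' : e' = loc.op e
  · subst h'
    rw [loc.tgt_op] at hU
    exact (per_l e hU fun p q c => (xi_wa e (.inr c)).trans (mul_one _).symm).trans (if_pos rfl)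
  · exact per_zero e' hU fun p q c => xi_wa_ne h h' (.inr c)

end Crest.Agent.N255.Da

end
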