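import Mathlib

/-!
# Row 255 (helper36): decision trees for cochain complexes of cliques, and a checker on bit masks
-/

set_option autoImplicit false
set_option linter.unusedSectionVars false

namespace Crest.Agent.N255.Da

variable {V : Type} [DecidableEq V] (G : SimpleGraph V) (eps : V → Finset V → ℤ)

/-- cliques between `ρ` and `ρ ∪ A` -/
def Fam (ρ A : Finset V) (τ : Finset V) : Prop := G.IsClique (τ : Set V) ∧ ρ ⊆ τ ∧ τ ⊆ ρ ∪ A

/-- the coboundary of the cliques containing `ρ` -/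
def de (ρ : Finset V) : (Finset V → ℤ) →ₗ[ℤ] Finset V → ℤ where
  toFun a τ := ∑ s ∈ τ \ ρ, eps s (τ.erase s) * a (τ.erase s)
  map_add' a b := by funext τ; simp [mul_add, Finset.sum_add_distrib]
  map_smul' r a := by funext τ; simp [Finset.mul_sum, mul_left_comm]

theorem de_apply (ρ : Finset V) (a : Finset V → ℤ) (τ : Finset V) :
    de eps ρ a τ = ∑ s ∈ τ \ ρ, eps s (τ.erase s) * a (τ.erase s) := rfl

/-- cocycles -/
def Cy (ρ A : Finset V) (a : Finset V → ℤ) : Prop := ∀ τ, Fam G ρ A τ → de eps ρ a τ = 0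

/-- coboundaries -/
def Cb (ρ A : Finset V) (a : Finset V → ℤ) : Prop := ∃ h, ∀ τ, Fam G ρ A τ → a τ = de eps ρ h τ

/-- at most `n` critical cells -/
def Gd (ρ A : Finset V) (n : ℕ) : Prop := ∃ (K : List (Finset V)) (U : Finset V → Prop),
  K.length ≤ n ∧ (∀ τ, U τ → Fam G ρ A τ) ∧ (∀ a : Finset V → ℤ, ∃ h, ∀ τ, U τ → a τ = de eps ρ h τ) ∧
    ∀ a, Cy G eps ρ A a → (∀ τ, U τ → a τ = 0) → (∀ τ ∈ K, a τ = 0) → ∀ τ, Fam G ρ A τ → a τ = 0

/-- `ρ` is a clique and `A` consists of common neighbours -/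
def Ok (ρ A : Finset V) : Prop := G.IsClique (ρ : Set V) ∧ ∀ a ∈ A, a ∉ ρ ∧ ∀ r ∈ ρ, G.Adj a r

variable {G eps} {ρ A : Finset V} {n : ℕ}

theorem Fam.erase {τ : Finset V} (h : Fam G ρ A τ) {s : V} (hs : s ∉ ρ) : Fam G ρ A (τ.erase s) :=
  ⟨h.1.subset (by simp), fun _ hr => Finset.mem_erase.2 ⟨fun e => hs (e ▸ hr), h.2.1 hr⟩,
    (Finset.erase_subset _ _).trans h.2.2⟩

theorem de_congr {a b : Finset V → ℤ} {τ : Finset V}
    (h : ∀ s ∈ τ, s ∉ ρ → a (τ.erase s) = b (τ.erase s)) : de eps ρ a τ = de eps ρ b τ :=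
  Finset.sum_congr rfl fun s hs => by
    rw [h s (Finset.mem_sdiff.1 hs).1 (Finset.mem_sdiff.1 hs).2]

theorem de_insert (a : Finset V → ℤ) {τ : Finset V} {v : V} (hv : v ∈ τ) (hρ : v ∉ ρ) :
    de eps ρ a τ = eps v (τ.erase v) * a (τ.erase v) + de eps (insert v ρ) a τ := by
  rw [de_apply, de_apply, ← Finset.add_sum_erase _ _ (Finset.mem_sdiff.2 ⟨hv, hρ⟩),
    Finset.sdiff_insert]

theorem Gd.mono {m : ℕ} (h : Gd G eps ρ A n) (hm : n ≤ m) : Gd G eps ρ A m :=
  let ⟨K, U, h1, h2⟩ := h; ⟨K, U, h1.trans hm, h2⟩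

theorem gd_leaf : Gd G eps ρ ∅ 1 :=
  ⟨[ρ], fun _ => False, le_rfl, fun _ h => h.elim, fun _ => ⟨0, fun _ h => h.elim⟩,
    fun a _ _ hK τ hτ => by
      have : τ = ρ := Finset.Subset.antisymm (by simpa using hτ.2.2) hτ.2.1
      exact hK τ (by simp [this])⟩

theorem Ok.insert_mem (h : Ok G ρ A) {v : V} (hv : v ∈ A) {σ : Finset V} (hσ : Fam G ρ A σ)
    (hc : ∀ a ∈ σ, a ∈ A → a ≠ v → G.Adj a v) : Fam G ρ A (insert v σ) := by
  refine ⟨?_, hσ.2.1.trans (Finset.subset_insert _ _),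
    Finset.insert_subset (Finset.mem_union_right _ hv) hσ.2.2⟩
  rw [Finset.coe_insert]
  refine hσ.1.insert fun b hb hne => ?_
  rcases Finset.mem_union.1 (hσ.2.2 hb) with h1 | h1
  · exact (h.2 v hv).2 b h1
  · exact (hc b hb h1 hne.symm).symm

theorem gd_cone (he : ∀ s τ, eps s τ * eps s τ = 1) (h : Ok G ρ A) {v : V} (hv : v ∈ A)
    (hc : ∀ a ∈ A, a ≠ v → G.Adj a v) : Gd G eps ρ A 0 := by
  have hρ := (h.2 v hv).1
  refine ⟨[], fun τ => Fam G ρ A τ ∧ v ∈ τ, le_rfl, fun _ h => h.1, fun a => ⟨fun σ =>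
    if v ∈ σ then 0 else eps v σ * a (insert v σ), fun τ hτ => ?_⟩, fun a ha hU _ τ hτ => ?_⟩
  · rw [de_insert _ hτ.2 hρ, if_neg (Finset.notMem_erase _ _), Finset.insert_erase hτ.2,
      ← mul_assoc, he, one_mul, de_congr (b := 0), map_zero, Pi.zero_apply, add_zero]
    intro s _ hs
    exact if_pos (Finset.mem_erase.2 ⟨fun e => hs (by rw [← e]; simp), hτ.2⟩)
  · by_cases e : v ∈ τ
    · exact hU τ ⟨hτ, e⟩
    have h1 := h.insert_mem hv hτ fun a _ => hc a
    have h2 := ha _ h1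
    rw [de_insert _ (Finset.mem_insert_self _ _) hρ, Finset.erase_insert e, de_congr (b := 0),
      map_zero, Pi.zero_apply, add_zero] at h2
    · rw [← one_mul (a τ), ← he v τ, mul_assoc, h2, mul_zero]
    · intro s _ hs
      rw [Finset.mem_insert, not_or] at hs
      exact hU _ ⟨h1.erase hs.2, Finset.mem_erase.2 ⟨fun e => hs.1 e.symm, Finset.mem_insert_self _ _⟩⟩

theorem Ok.left (h : Ok G ρ A) {v : V} (hv : v ∈ A) {B : Finset V}
    (hB : ∀ a, a ∈ B ↔ a ∈ A ∧ G.Adj v a) : Ok G (insert v ρ) B := by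
  refine ⟨?_, fun a ha => ?_⟩
  · rw [Finset.coe_insert]
    exact h.1.insert fun b hb _ => (h.2 v hv).2 b hb
  · obtain ⟨h1, h2⟩ := (hB a).1 ha
    refine ⟨?_, fun r hr => ?_⟩
    · rw [Finset.mem_insert, not_or]
      exact ⟨h2.ne', (h.2 a h1).1⟩
    · rcases Finset.mem_insert.1 hr with rfl | hr
      · exact h2.symm
      · exact (h.2 a h1).2 r hr

theorem Ok.right (h : Ok G ρ A) (v : V) : Ok G ρ (A.erase v) :=
  ⟨h.1, fun a ha => h.2 a (Finset.mem_of_mem_erase ha)⟩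

theorem fam_left {v : V} (hv : v ∈ A) {B : Finset V} (hB : ∀ a, a ∈ B ↔ a ∈ A ∧ G.Adj v a)
    {τ : Finset V} : Fam G (insert v ρ) B τ ↔ Fam G ρ A τ ∧ v ∈ τ := by
  constructor
  · rintro ⟨h1, h2, h3⟩
    refine ⟨⟨h1, (Finset.subset_insert _ _).trans h2, fun x hx => ?_⟩, h2 (Finset.mem_insert_self _ _)⟩
    have := h3 hx
    simp only [Finset.mem_union, Finset.mem_insert, hB] at this ⊢
    rcases this with (rfl | h) | h
    exacts [Or.inr hv, Or.inl h, Or.inr h.1]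
  · rintro ⟨⟨h1, h2, h3⟩, h4⟩
    refine ⟨h1, Finset.insert_subset h4 h2, fun x hx => ?_⟩
    have := h3 hx
    simp only [Finset.mem_union, Finset.mem_insert, hB] at this ⊢
    by_cases e : x = v
    · exact Or.inl (Or.inl e)
    · exact this.imp Or.inr fun h => ⟨h, h1 h4 hx (Ne.symm e)⟩

theorem fam_right {v : V} (hρ : v ∉ ρ) {τ : Finset V} :
    Fam G ρ (A.erase v) τ ↔ Fam G ρ A τ ∧ v ∉ τ := by
  constructor
  · rintro ⟨h1, h2, h3⟩
    refine ⟨⟨h1, h2, h3.trans (Finset.union_subset_union_right (Finset.erase_subset _ _))⟩,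
      fun hv => ?_⟩
    simpa [hρ] using h3 hv
  · rintro ⟨⟨h1, h2, h3⟩, h4⟩
    refine ⟨h1, h2, fun x hx => ?_⟩
    have := h3 hx
    simp only [Finset.mem_union, Finset.mem_erase] at this ⊢
    exact this.imp_right fun h => ⟨fun e => h4 (e ▸ hx), h⟩

theorem gd_split (h : Ok G ρ A) {v : V} (hv : v ∈ A) {B : Finset V}
    (hB : ∀ a, a ∈ B ↔ a ∈ A ∧ G.Adj v a) {m : ℕ} (h1 : Gd G eps (insert v ρ) B n)
    (h2 : Gd G eps ρ (A.erase v) m) : Gd G eps ρ A (n + m) := by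
  have hρ := (h.2 v hv).1
  obtain ⟨K1, U1, l1, s1, a1, b1⟩ := h1
  obtain ⟨K2, U2, l2, s2, a2, b2⟩ := h2
  refine ⟨K1 ++ K2, fun τ => U1 τ ∨ U2 τ, by rw [List.length_append]; omega,
    fun τ hτ => hτ.elim (fun h => ((fam_left hv hB).1 (s1 τ h)).1)
      fun h => ((fam_right hρ).1 (s2 τ h)).1, fun a => ?_, fun a ha hU hK => ?_⟩
  · obtain ⟨h2, e2⟩ := a2 a
    obtain ⟨h1, e1⟩ := a1 fun τ => a τ - eps v (τ.erase v) * h2 (τ.erase v)
    refine ⟨fun σ => if v ∈ σ then h1 σ else h2 σ, fun τ hτ => ?_⟩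
    rcases hτ with hτ | hτ
    · have hv' := ((fam_left hv hB).1 (s1 τ hτ)).2
      rw [de_insert _ hv' hρ, if_neg (Finset.notMem_erase _ _), de_congr (b := h1), ← e1 τ hτ]
      · ring
      · intro s _ hs
        exact if_pos (Finset.mem_erase.2 ⟨fun e => hs (by rw [← e]; simp), hv'⟩)
    · have hv' := ((fam_right hρ).1 (s2 τ hτ)).2
      rw [e2 τ hτ]
      exact de_congr fun s _ _ => (if_neg fun e => hv' (Finset.mem_of_mem_erase e)).symm
  · have z2 := b2 a (fun τ hτ => ha τ ((fam_right hρ).1 hτ).1) (fun τ hτ => hU τ (Or.inr hτ))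
      fun τ hτ => hK τ (List.mem_append_right _ hτ)
    have z1 := b1 a (fun τ hτ => by
      obtain ⟨f1, f2⟩ := (fam_left hv hB).1 hτ
      have := ha τ f1
      rwa [de_insert _ f2 hρ, z2 _ ((fam_right hρ).2 ⟨f1.erase hρ, Finset.notMem_erase _ _⟩),
        mul_zero, zero_add] at this) (fun τ hτ => hU τ (Or.inl hτ))
      fun τ hτ => hK τ (List.mem_append_left _ hτ)
    intro τ hτ
    by_cases e : v ∈ τ
    · exact z1 τ ((fam_left hv hB).2 ⟨hτ, e⟩)
    · exact z2 τ ((fam_right hρ).2 ⟨hτ, e⟩)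

/-- **periods detect coboundaries** -/
theorem Gd.exact {ι : Type} [Fintype ι] (h : Gd G eps ρ A (Fintype.card ι))
    (dd : ∀ a, Cy G eps ρ A (de eps ρ a)) (f : (Finset V → ℤ) →ₗ[ℤ] ι → ℤ)
    (loc : ∀ a, (∀ τ, Fam G ρ A τ → a τ = 0) → f a = 0) (fd : ∀ a, f (de eps ρ a) = 0)
    (onto : ∀ y, ∃ a, Cy G eps ρ A a ∧ f a = y) {a : Finset V → ℤ} (ha : Cy G eps ρ A a)
    (hf : f a = 0) : Cb G eps ρ A a := by
  classical
  obtain ⟨K, U, l, -, a1, b1⟩ := h
  let N : Submodule ℤ (Finset V → ℤ) :=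
    { carrier := {a | Cy G eps ρ A a ∧ (∀ τ, U τ → a τ = 0) ∧ ∀ τ, ¬ Fam G ρ A τ → a τ = 0}
      add_mem' := fun {a b} x y => ⟨fun τ hτ => by simp [x.1 τ hτ, y.1 τ hτ],
        fun τ hτ => by simp [x.2.1 τ hτ, y.2.1 τ hτ], fun τ hτ => by simp [x.2.2 τ hτ, y.2.2 τ hτ]⟩
      zero_mem' := ⟨fun τ _ => by simp, fun _ _ => rfl, fun _ _ => rfl⟩
      smul_mem' := fun r a x => ⟨fun τ hτ => by
          rw [map_smul, Pi.smul_apply, x.1 τ hτ, smul_zero],
        fun τ hτ => by simp [x.2.1 τ hτ], fun τ hτ => by simp [x.2.2 τ hτ]⟩ }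
  have nrm : ∀ a, Cy G eps ρ A a → ∃ h, ∃ b : N, f b = f a ∧
      ∀ τ, Fam G ρ A τ → b.1 τ = a τ - de eps ρ h τ := fun a ha => by
    obtain ⟨h, e⟩ := a1 a
    let b : Finset V → ℤ := fun τ => if Fam G ρ A τ then a τ - de eps ρ h τ else 0
    have hb : ∀ τ, Fam G ρ A τ → b τ = (a - de eps ρ h) τ := fun τ hτ => if_pos hτ
    refine ⟨h, ⟨b, fun τ hτ => ?_, fun τ hτ => by simp [b, e τ hτ], fun τ hτ => if_neg hτ⟩, ?_, hb⟩
    · rw [de_congr fun s _ hs => hb _ (hτ.erase hs), map_sub, Pi.sub_apply, ha τ hτ, dd h τ hτ,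
        sub_zero]
    · have := loc (b - (a - de eps ρ h)) fun τ hτ => by rw [Pi.sub_apply, hb τ hτ, sub_self]
      rwa [map_sub, map_sub, fd, sub_zero, sub_eq_zero] at this
  let e := Fintype.equivFin ι
  let i : N →ₗ[ℤ] ι → ℤ := LinearMap.pi fun j => (LinearMap.proj (K.getD (e j) ∅)).comp N.subtype
  have hi : Function.Injective i := (injective_iff_map_eq_zero i).2 fun b hb => by
    refine Subtype.ext (funext fun τ => ?_)
    by_cases hτ : Fam G ρ A τ
    · refine b1 b b.2.1 b.2.2.1 (fun σ hσ => ?_) τ hτ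
      obtain ⟨k, hk, rfl⟩ := List.getElem_of_mem hσ
      have := congrFun hb (e.symm ⟨k, hk.trans_le l⟩)
      simpa [i, List.getElem?_eq_getElem hk] using this
    · exact b.2.2.2 τ hτ
  have hinj := OrzechProperty.injective_of_surjective_of_injective i (f.comp N.subtype) hi fun y => by
    obtain ⟨a, ha, rfl⟩ := onto y
    obtain ⟨_, b, hb, -⟩ := nrm a ha
    exact ⟨b, hb⟩
  obtain ⟨h, b, hb, e⟩ := nrm a ha
  have : b = 0 := hinj (by rw [map_zero]; exact hb.trans hf)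
  exact ⟨h, fun τ hτ => sub_eq_zero.1 ((e τ hτ).symm.trans (by rw [this]; rfl))⟩

theorem Gd.acyc (h : Gd G eps ρ A 0) (dd : ∀ a, Cy G eps ρ A (de eps ρ a)) {a : Finset V → ℤ}
    (ha : Cy G eps ρ A a) : Cb G eps ρ A a :=
  Gd.exact (ι := Empty) (by simpa using h) dd 0 (fun _ _ => rfl) (fun _ => rfl)
    (fun y => ⟨0, fun _ _ => by simp, Subsingleton.elim _ _⟩) ha rfl

/-- one period -/
theorem Gd.one (h : Gd G eps ρ A 1) (dd : ∀ a, Cy G eps ρ A (de eps ρ a))
    (f : (Finset V → ℤ) →ₗ[ℤ] ℤ) (loc : ∀ a, (∀ τ, Fam G ρ A τ → a τ = 0) → f a = 0)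
    (fd : ∀ a, f (de eps ρ a) = 0) {a0 : Finset V → ℤ} (h0 : Cy G eps ρ A a0) (h1 : f a0 = 1)
    {a : Finset V → ℤ} (ha : Cy G eps ρ A a) (hf : f a = 0) : Cb G eps ρ A a :=
  Gd.exact (ι := Unit) (by simpa using h) dd (LinearMap.pi fun _ => f)
    (fun a h => funext fun _ => loc a h) (fun a => funext fun _ => fd a)
    (fun y => ⟨y () • a0, fun τ hτ => by rw [map_smul, Pi.smul_apply, h0 τ hτ, smul_zero],
      funext fun _ => by rw [LinearMap.pi_apply, map_smul, h1, smul_eq_mul, mul_one]⟩) ha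
    (funext fun _ => hf)

/-- `de ∘ de = 0` for antisymmetric signs -/
theorem dd_of (hs : ∀ (s t : V) (σ : Finset V), G.Adj s t → s ∉ σ → t ∉ σ →
    eps s (insert t σ) * eps t σ + eps t (insert s σ) * eps s σ = 0) (a : Finset V → ℤ) :
    Cy G eps ρ A (de eps ρ a) := by
  intro τ hτ
  have e : ∀ s ∈ τ \ ρ, eps s (τ.erase s) * de eps ρ a (τ.erase s) =
      ∑ t ∈ τ \ ρ, if t = s then 0 else
        eps s (τ.erase s) * (eps t ((τ.erase s).erase t) * a ((τ.erase s).erase t)) := fun s hs => by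
    rw [de_apply, Finset.mul_sum, Finset.erase_sdiff_comm, ← Finset.add_sum_erase _ _ hs,
      if_pos rfl, zero_add]
    exact Finset.sum_congr rfl fun t ht => (if_neg (Finset.ne_of_mem_erase ht)).symm
  rw [de_apply, Finset.sum_congr rfl e, ← Finset.sum_product']
  refine Finset.sum_involution (fun p _ => p.swap) (fun p hp => ?_) (fun p _ h e => h ?_)
    (fun p hp => by simpa [and_comm] using hp) fun _ _ => rfl
  · obtain ⟨s, t⟩ := p
    simp only [Finset.mem_product, Finset.mem_sdiff] at hp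
    by_cases e : t = s
    · simp [e]
    have h1 := hs s t ((τ.erase s).erase t) (hτ.1 hp.1.1 hp.2.1 (Ne.symm e)) (by simp) (by simp)
    rw [Finset.insert_erase (Finset.mem_erase.2 ⟨e, hp.2.1⟩)] at h1
    simp only [Prod.swap, if_neg e, if_neg (Ne.symm e)]
    rw [Finset.erase_right_comm (a := t)]
    rw [show insert s ((τ.erase s).erase t) = τ.erase t by
      rw [Finset.erase_right_comm, Finset.insert_erase (Finset.mem_erase.2 ⟨Ne.symm e, hp.1.1⟩)]] at h1
    linear_combination a ((τ.erase s).erase t) * h1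
  · exact if_pos (congrArg Prod.fst e)

/-! ### the checker -/

/-- number of critical cells of the tree given by `pick`; `1000` = failure -/
def run (nb pick : ℕ → ℕ) : ℕ → ℕ → ℕ
  | 0, _ => 1000
  | f + 1, A => bif A == 0 then 1 else
      bif A.testBit (pick A) then
        bif (A ^^^ 2 ^ pick A) &&& nb (pick A) == A ^^^ 2 ^ pick A then 0
        else run nb pick f (A &&& nb (pick A)) + run nb pick f (A ^^^ 2 ^ pick A)
      else 1000

/-- the same with a prescribed order on the top level -/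
def runL (nb pick : ℕ → ℕ) (f : ℕ) : List ℕ → ℕ → ℕ
  | [], A => run nb pick f A
  | v :: l, A => bif A.testBit v then run nb pick f (A &&& nb v) + runL nb pick f l (A ^^^ 2 ^ v)
      else 1000

variable [Fintype V]

/-- the set of a mask -/
def S (enc : V → ℕ) (m : ℕ) : Finset V := Finset.univ.filter fun v => m.testBit (enc v)

theorem mem_S {enc : V → ℕ} {m : ℕ} {v : V} : v ∈ S enc m ↔ m.testBit (enc v) := by simp [S]

/-- `enc` codes the vertices, `nb` the neighbourhoods; all masks stay below `M` -/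
structure Code (G : SimpleGraph V) (enc : V → ℕ) (nb : ℕ → ℕ) (M : ℕ) : Prop where
  inj : Function.Injective enc
  adj : ∀ u v, G.Adj u v ↔ (nb (enc u)).testBit (enc v)
  sur : ∀ k, M.testBit k → ∃ v, enc v = k

/-- the mask `A` lies in `M` -/
def Sub (A M : ℕ) : Prop := ∀ k, A.testBit k → M.testBit k

theorem Sub.land {A M : ℕ} (h : Sub A M) (B : ℕ) : Sub (A &&& B) M := fun k hk => by
  rw [Nat.testBit_and, Bool.and_eq_true] at hk; exact h k hk.1

theorem Sub.xor {A M v : ℕ} (h : Sub A M) (hv : A.testBit v) : Sub (A ^^^ 2 ^ v) M := fun k hk => by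
  by_cases e : v = k
  · exact h k (e ▸ hv)
  · rw [Nat.testBit_xor, Nat.testBit_two_pow_of_ne e, Bool.xor_false] at hk; exact h k hk

variable {enc : V → ℕ} {nb : ℕ → ℕ} {M : ℕ}

theorem Code.S_xor (hc : Code G enc nb M) {m : ℕ} {v : V} (hv : m.testBit (enc v)) :
    S enc (m ^^^ 2 ^ enc v) = (S enc m).erase v := by
  ext a
  rw [Finset.mem_erase, mem_S, mem_S, Nat.testBit_xor]
  by_cases e : a = v
  · simp [e, hv]
  · simp [e, Nat.testBit_two_pow_of_ne (hc.inj.ne (Ne.symm e))]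

theorem Code.S_and (hc : Code G enc nb M) (m : ℕ) (v a : V) :
    a ∈ S enc (m &&& nb (enc v)) ↔ a ∈ S enc m ∧ G.Adj v a := by
  rw [mem_S, mem_S, Nat.testBit_and, Bool.and_eq_true, hc.adj]

theorem Code.run_sound (hc : Code G enc nb M) (he : ∀ s τ, eps s τ * eps s τ = 1) (pick : ℕ → ℕ)
    (f : ℕ) : ∀ (m : ℕ) (ρ : Finset V), Sub m M → Ok G ρ (S enc m) → run nb pick f m < 1000 →
      Gd G eps ρ (S enc m) (run nb pick f m) := by
  induction f with
  | zero => intro m ρ _ _ h; exact absurd h (lt_irrefl _)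
  | succ f ih =>
    intro m ρ hm ho h
    rw [run] at h ⊢
    by_cases e0 : m = 0
    · subst e0
      rw [show S enc 0 = ∅ by simp [S]]
      exact gd_leaf
    rw [beq_false_of_ne e0, cond_false] at h ⊢
    by_cases e1 : m.testBit (pick m)
    swap
    · rw [Bool.not_eq_true] at e1; rw [e1] at h; exact absurd h (lt_irrefl _)
    obtain ⟨v, hv⟩ := hc.sur _ (hm _ e1)
    rw [e1, cond_true, ← hv] at h ⊢
    rw [← hv] at e1
    by_cases e2 : (m ^^^ 2 ^ enc v) &&& nb (enc v) = m ^^^ 2 ^ enc v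
    · rw [beq_iff_eq.2 e2, cond_true]
      refine gd_cone he ho (mem_S.2 e1) fun a ha hne => ?_
      have : a ∈ S enc ((m ^^^ 2 ^ enc v) &&& nb (enc v)) := by
        rw [e2, hc.S_xor e1]; exact Finset.mem_erase.2 ⟨hne, ha⟩
      exact ((hc.S_and _ v a).1 this).2.symm
    rw [beq_false_of_ne e2, cond_false] at h ⊢
    refine gd_split ho (mem_S.2 e1) (hc.S_and m v)
      (ih _ _ (hm.land _) (ho.left (mem_S.2 e1) (hc.S_and m v)) (by omega)) ?_
    rw [← hc.S_xor e1]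
    exact ih _ _ (hm.xor e1) (by rw [hc.S_xor e1]; exact ho.right v) (by omega)

theorem Code.runL_sound (hc : Code G enc nb M) (he : ∀ s τ, eps s τ * eps s τ = 1) (pick : ℕ → ℕ)
    (f : ℕ) (l : List ℕ) : ∀ (m : ℕ) (ρ : Finset V), Sub m M → Ok G ρ (S enc m) →
      runL nb pick f l m < 1000 → Gd G eps ρ (S enc m) (runL nb pick f l m) := by
  induction l with
  | nil => exact hc.run_sound he pick f
  | cons k l ih =>
    intro m ρ hm ho h
    rw [runL] at h ⊢
    by_cases e1 : m.testBit k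
    swap
    · rw [Bool.not_eq_true] at e1; rw [e1] at h; exact absurd h (lt_irrefl _)
    obtain ⟨v, rfl⟩ := hc.sur _ (hm _ e1)
    rw [e1, cond_true] at h ⊢
    refine gd_split ho (mem_S.2 e1) (hc.S_and m v) (hc.run_sound he pick f _ _ (hm.land _)
      (ho.left (mem_S.2 e1) (hc.S_and m v)) (by omega)) ?_
    rw [← hc.S_xor e1]
    exact ih _ _ (hm.xor e1) (by rw [hc.S_xor e1]; exact ho.right v) (by omega)

end Crest.Agent.N255.Da
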